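import Vale.Agent.P072.Lyap

/-!
Existence of maximisers, their directions, and the convex function they define.
-/

namespace Vale.Agent.P072

open Finset Real

namespace Par

variable {P : Par}

theorem wt_ge (w : Fin P.d → Bool) (k : Fin P.d) :
    exp (-((P.R : ℝ) * (P.K : ℝ) ^ (2 ^ (P.d + 1)))) ≤ P.wt w k := by
  unfold wt
  split_ifs
  · exact exp_le_exp.mpr (neg_le_neg (T_le_top w k.isLt))
  · exact exp_le_one_iff.mpr (neg_nonpos.mpr (by positivity))

theorem isClosed_dom (w : Fin P.d → Bool) : IsClosed {τ | P.Dom w τ} := by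
  have hc : ∀ r : Fin P.d → ℤ, Continuous fun τ : Fin P.d → ℝ => rv r τ := fun r =>
    continuous_finsetSum _ fun l _ => continuous_const.mul (continuous_apply l)
  unfold Dom
  refine IsClosed.inter ?_ ?_
  · show IsClosed {τ : Fin P.d → ℝ | ∀ i j, i ≤ j → τ j ≤ τ i}
    simp only [Set.ofPred_forall]
    exact isClosed_iInter fun i => isClosed_iInter fun j => isClosed_iInter fun _ =>
      isClosed_le (continuous_apply j) (continuous_apply i)
  · show IsClosed {τ : Fin P.d → ℝ | ∀ k, _}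
    rw [Set.ofPred_forall]
    refine isClosed_iInter fun k => ?_
    cases hw : w k
    · have : {τ : Fin P.d → ℝ | (false = true ∧ ∃ r ∈ P.forms ((k : ℕ) + 1),
          r k ≠ 0 ∧ rv r τ = 0) ∨ (false = false ∧ ∀ r ∈ P.forms ((k : ℕ) + 1), r k ≠ 0 →
          P.T w k * |(r k : ℝ)| ≤ |rv r τ|)} = ⋂ r ∈ P.forms ((k : ℕ) + 1), ⋂ (_ : r k ≠ 0),
          {τ | P.T w k * |(r k : ℝ)| ≤ |rv r τ|} := by
        ext τ; simp
      rw [this]
      exact isClosed_biInter fun r _ => isClosed_iInter fun _ =>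
        isClosed_le continuous_const (hc r).abs
    · have : {τ : Fin P.d → ℝ | (true = true ∧ ∃ r ∈ P.forms ((k : ℕ) + 1),
          r k ≠ 0 ∧ rv r τ = 0) ∨ (true = false ∧ ∀ r ∈ P.forms ((k : ℕ) + 1), r k ≠ 0 →
          P.T w k * |(r k : ℝ)| ≤ |rv r τ|)} = ⋃ r ∈ (P.forms ((k : ℕ) + 1)).filter (fun r => r k ≠ 0),
          {τ | rv r τ = 0} := by
        ext τ; simp [and_assoc]
      rw [this]
      exact isClosed_biUnion_finset fun r _ => isClosed_eq (hc r) continuous_const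

theorem continuous_val (p : P.Tag) :
    Continuous fun q : (Fin P.d → ℝ) × (Fin P.d → ℝ) => P.val p q.1 q.2 := by
  unfold val pen
  fun_prop

/-- a vector worth at least the origin is confined -/
theorem bound_of_val_nonneg {δ m : ℝ} (hδ : 0 < δ) :
    ∃ B, ∀ (p : P.Tag) (τ x : Fin P.d → ℝ), (∀ i, δ ≤ x i ∧ x i ≤ m) →
      0 ≤ P.val p τ x → ∀ k, |τ k| ≤ B := by
  set c := exp (-((P.R : ℝ) * (P.K : ℝ) ^ (2 ^ (P.d + 1)))) with hc
  have hc0 : 0 < c := exp_pos _
  set C := P.base + P.d * (m ^ 2 / (2 * c)) with hC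
  refine ⟨max (max (C / δ) 1) (2 * (m + |C|) / c), fun p τ x hx hval k => ?_⟩
  have hterm : ∀ l, x (p.1 l) * τ l - P.wt p.2 l * exp (τ l) ≤ m ^ 2 / (2 * c) := fun l => by
    obtain ⟨h1, h2⟩ := hx (p.1 l)
    have hw := wt_ge p.2 l
    have hm : 0 ≤ m ^ 2 / (2 * c) := by positivity
    rcases le_total (τ l) 0 with ht | ht
    · nlinarith [mul_nonpos_of_nonneg_of_nonpos (hδ.le.trans h1) ht,
        mul_pos (P.wt_pos p.2 l) (exp_pos (τ l))]
    · have hq := quadratic_le_exp_of_nonneg ht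
      have h3 : c * (τ l ^ 2 / 2) ≤ P.wt p.2 l * exp (τ l) :=
        mul_le_mul hw (by linarith) (by positivity) (P.wt_pos _ _).le
      have h5 := mul_le_mul_of_nonneg_right h2 ht
      have h6 : m * τ l - c * (τ l ^ 2 / 2) ≤ m ^ 2 / (2 * c) := by
        rw [le_div_iff₀ (by positivity)]
        linarith [sq_nonneg (c * τ l - m),
          show (m * τ l - c * (τ l ^ 2 / 2)) * (2 * c)
            = m ^ 2 - (c * τ l - m) ^ 2 by ring]
      linarith
  have hk : -(C) ≤ x (p.1 k) * τ k - P.wt p.2 k * exp (τ k) := by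
    have h1 : ∑ l ∈ univ.erase k, (x (p.1 l) * τ l - P.wt p.2 l * exp (τ l))
        ≤ (P.d : ℝ) * (m ^ 2 / (2 * c)) := by
      refine le_trans (Finset.sum_le_card_nsmul _ _ _ fun l _ => hterm l) ?_
      rw [nsmul_eq_mul]
      refine mul_le_mul_of_nonneg_right ?_ (by positivity)
      exact_mod_cast (Finset.card_le_univ _).trans_eq (Fintype.card_fin _)
    simp only [val, pen, ← Finset.sum_sub_distrib] at hval
    rw [← Finset.add_sum_erase _ _ (Finset.mem_univ k)] at hval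
    rw [hC]; linarith
  obtain ⟨h1, h2⟩ := hx (p.1 k)
  have hw := wt_ge p.2 k
  have hpos := mul_pos (P.wt_pos p.2 k) (exp_pos (τ k))
  rw [abs_le]
  constructor
  · have : -(C / δ) ≤ τ k ∨ 0 ≤ τ k := by
      rcases le_total 0 (τ k) with ht | ht
      · exact Or.inr ht
      · left
        rw [neg_le, le_div_iff₀ hδ]
        nlinarith
    rcases this with h | h
    · linarith [le_max_left (C / δ) 1, le_max_left (max (C / δ) 1) (2 * (m + |C|) / c)]
    · linarith [le_max_right (C / δ) 1, le_max_left (max (C / δ) 1) (2 * (m + |C|) / c)]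
  · by_contra hn
    push Not at hn
    have ht1 : 1 ≤ τ k := le_of_lt (lt_of_le_of_lt
      ((le_max_right _ _).trans (le_max_left _ _)) hn)
    have hq := quadratic_le_exp_of_nonneg (le_trans zero_le_one ht1)
    have h3 : c * (τ k ^ 2 / 2) ≤ P.wt p.2 k * exp (τ k) :=
      mul_le_mul hw (by linarith) (by positivity) (P.wt_pos _ _).le
    have h4 : 2 * (m + |C|) / c < τ k := lt_of_le_of_lt (le_max_right _ _) hn
    rw [div_lt_iff₀ hc0] at h4
    nlinarith [le_abs_self C, mul_le_mul_of_nonneg_right h2 (le_trans zero_le_one ht1),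
      mul_le_mul_of_nonneg_left ht1 (abs_nonneg C)]

theorem isBest_val_nonneg {x : Fin P.d → ℝ} {p : P.Tag} {τ : Fin P.d → ℝ}
    (h : P.IsBest x p τ) : 0 ≤ P.val p τ x := by
  have := h.2 (p.1, P.allSnap) 0 dom_zero
  rwa [val_zero] at this

theorem exists_best {x : Fin P.d → ℝ} (hx : ∀ i, 0 < x i) : ∃ p τ, P.IsBest x p τ := by
  classical
  obtain ⟨δ, hδ, hδx⟩ : ∃ δ, 0 < δ ∧ ∀ i, δ ≤ x i := by
    by_cases hne : (univ : Finset (Fin P.d)).Nonempty
    · obtain ⟨i, -, hi⟩ := Finset.exists_min_image univ x hne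
      exact ⟨x i, hx i, fun j => hi j (Finset.mem_univ j)⟩
    · exact ⟨1, one_pos, fun i => absurd ⟨i, Finset.mem_univ i⟩ hne⟩
  obtain ⟨m, hm⟩ : ∃ m, ∀ i, x i ≤ m :=
    ⟨∑ i, x i, fun i => Finset.single_le_sum (fun j _ => (hx j).le) (Finset.mem_univ i)⟩
  obtain ⟨B, hB⟩ := bound_of_val_nonneg (P := P) (m := m) hδ
  let S : P.Tag → Set (Fin P.d → ℝ) := fun p =>
    {τ | P.Dom p.2 τ} ∩ Set.Icc (fun _ => -B) fun _ => B
  have hS : ∀ p, IsCompact (S p) := fun p => isCompact_Icc.inter_left (isClosed_dom p.2)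
  have hcont : ∀ p : P.Tag, Continuous fun τ => P.val p τ x := fun p =>
    (continuous_val p).comp (continuous_id.prodMk continuous_const)
  have hmem : ∀ q σ, P.Dom q.2 σ → 0 ≤ P.val q σ x → σ ∈ S q := fun q σ hσ h0 =>
    ⟨hσ, fun k => (abs_le.mp (hB q σ x (fun i => ⟨hδx i, hm i⟩) h0 k)).1,
      fun k => (abs_le.mp (hB q σ x (fun i => ⟨hδx i, hm i⟩) h0 k)).2⟩
  set N := univ.filter fun p => (S p).Nonempty
  have hN : N.Nonempty := ⟨(1, P.allSnap), Finset.mem_filter.mpr ⟨Finset.mem_univ _, 0,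
    hmem (1, P.allSnap) 0 dom_zero (val_zero _ _).ge⟩⟩
  have hex : ∀ p ∈ N, ∃ τ, τ ∈ S p ∧ ∀ σ ∈ S p, P.val p σ x ≤ P.val p τ x := fun p hp => by
    obtain ⟨τ, hτ, hmax⟩ := (hS p).exists_isMaxOn (Finset.mem_filter.mp hp).2 (hcont p).continuousOn
    exact ⟨τ, hτ, hmax⟩
  choose! g hg using hex
  obtain ⟨p, hp, hpmax⟩ := Finset.exists_max_image N (fun p => P.val p (g p) x) hN
  refine ⟨p, g p, (hg p hp).1.1, fun q σ hσ => ?_⟩
  have h0 : 0 ≤ P.val p (g p) x := by
    have hz : (1, P.allSnap) ∈ N := Finset.mem_filter.mpr ⟨Finset.mem_univ _, 0,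
      hmem (1, P.allSnap) 0 dom_zero (val_zero _ _).ge⟩
    have h2 := (hg _ hz).2 0 (hmem (1, P.allSnap) 0 dom_zero (val_zero _ _).ge)
    rw [val_zero] at h2
    exact h2.trans (hpmax _ hz)
  by_cases hneg : P.val q σ x < 0
  · linarith
  · push Not at hneg
    have hqS := hmem q σ hσ hneg
    have hq : q ∈ N := Finset.mem_filter.mpr ⟨Finset.mem_univ _, σ, hqS⟩
    exact ((hg q hq).2 σ hqS).trans (hpmax q hq)

theorem best_no_inversion {x : Fin P.d → ℝ} {p : P.Tag} {τ : Fin P.d → ℝ}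
    (h : P.IsBest x p τ) {i j : Fin P.d} (hij : i < j) (hx : x (p.1 i) < x (p.1 j)) :
    τ i = τ j := by
  refine le_antisymm ?_ (h.1.1 i j hij.le)
  by_contra hc
  push Not at hc
  have h2 := h.2 (Equiv.swap i j |>.trans p.1, p.2) τ h.1
  simp only [val, Equiv.trans_apply] at h2
  have e : ∑ l, x (p.1 (Equiv.swap i j l)) * τ l - ∑ l, x (p.1 l) * τ l
      = (x (p.1 j) - x (p.1 i)) * (τ i - τ j) := by
    rw [← Finset.sum_sub_distrib,
      ← Finset.sum_subset (Finset.subset_univ ({i, j} : Finset (Fin P.d))) ?_,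
      Finset.sum_pair hij.ne, Equiv.swap_apply_left, Equiv.swap_apply_right]
    · ring
    · intro l _ hl
      simp only [Finset.mem_insert, Finset.mem_singleton, not_or] at hl
      rw [Equiv.swap_apply_of_ne_of_ne hl.1 hl.2, sub_self]
  nlinarith [mul_pos (sub_pos.mpr hx) (sub_pos.mpr hc)]

/-- a maximiser may be assumed sorted like the state, without changing its direction -/
theorem exists_sorted_best {x : Fin P.d → ℝ} {p : P.Tag} {τ : Fin P.d → ℝ}
    (h : P.IsBest x p τ) :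
    ∃ p' : P.Tag, P.IsBest x p' τ ∧ Antitone (x ∘ p'.1) ∧ P.dir p' τ = P.dir p τ := by
  classical
  set f : Fin P.d → ℝ := fun k => -x (p.1 k)
  set ρ := Tuple.sort f
  obtain ⟨hmono, hstab⟩ := (Tuple.eq_sort_iff (σ := ρ) (f := f)).mp rfl
  have hτρ : Antitone (τ ∘ ρ) := by
    intro a b hab
    simp only [Function.comp_apply]
    rcases eq_or_lt_of_le hab with rfl | hlt
    · exact le_rfl
    have hf : f (ρ a) ≤ f (ρ b) := hmono hab
    rcases eq_or_lt_of_le hf with he | hl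
    · exact h.1.1 _ _ (hstab a b hlt he).le
    · rcases le_total (ρ a) (ρ b) with hle | hle
      · exact h.1.1 _ _ hle
      · have hne : ρ b ≠ ρ a := fun e => by rw [e] at hl; exact lt_irrefl _ hl
        exact (best_no_inversion h (lt_of_le_of_ne hle hne) (by simp [f] at hl; exact hl)).le
  have hτ : τ ∘ ρ = τ := by
    have hid : Antitone (τ ∘ (Equiv.refl (Fin P.d))) := fun a b hab => h.1.1 a b hab
    simpa using Tuple.unique_antitone hτρ hid
  refine ⟨(ρ.trans p.1, p.2), ⟨h.1, fun q σ hσ => (h.2 q σ hσ).trans (le_of_eq ?_)⟩, ?_, ?_⟩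
  · simp only [val, Equiv.trans_apply]
    rw [← Equiv.sum_comp ρ (fun l => x (p.1 l) * τ l)]
    simp [show ∀ l, τ (ρ l) = τ l from fun l => congrFun hτ l]
  · intro a b hab
    have := hmono hab
    simp [f] at this ⊢
    exact this
  · funext i
    simp only [dir, Equiv.symm_trans_apply]
    conv_lhs => rw [← hτ]
    simp

/-- the direction of a maximiser: small integer forms vanish on it, or have the sign of the
logarithm with a margin -/
theorem dir_good (hR : P.Big) {x : Fin P.d → ℝ} (hx : ∀ i, 0 < x i) {p : P.Tag}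
    {τ : Fin P.d → ℝ} (h : P.IsBest x p τ) {r : Fin P.d → ℤ} (hr : ∀ i, |r i| ≤ (P.M : ℤ))
    (hpos : 0 < ∑ i, (r i : ℝ) * P.dir p τ i) :
    (P.R : ℝ) ≤ ∑ i, (r i : ℝ) * log (x i) := by
  obtain ⟨p', hb, hs, hd⟩ := exists_sorted_best h
  rw [← hd] at hpos
  have hclose := best_close hR hx hb hs le_rfl
  set r' : Fin P.d → ℤ := fun l => r (p'.1 l)
  have hr' : r' ∈ P.forms P.d := mem_forms.mpr
    ⟨fun l => (hr _).trans (by exact_mod_cast (P.M_lt_ht P.d).le),
      fun l hl => absurd l.isLt (by omega)⟩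
  have e1 : rv r' τ = ∑ i, (r i : ℝ) * P.dir p' τ i := by
    rw [← Equiv.sum_comp p'.1 (fun i => (r i : ℝ) * P.dir p' τ i)]
    simp [rv, dir, r']
  have e2 : ∑ i, (r i : ℝ) * log (x i) = ∑ l, (r' l : ℝ) * log (x (p'.1 l)) :=
    (Equiv.sum_comp p'.1 (fun i => (r i : ℝ) * log (x i))).symm
  rw [← e1] at hpos
  have hgap : P.gap p'.2 P.d ≤ rv r' τ := by
    rcases gap_dichotomy hb.1 le_rfl r' hr' with h0 | h0
    · linarith
    · rwa [abs_of_pos hpos] at h0
  have hdiff : rv r' τ - ∑ l, (r' l : ℝ) * log (x (p'.1 l))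
      ≤ P.d * P.htRec P.d * P.lo p'.2 P.d := by
    rw [rv, ← Finset.sum_sub_distrib]
    refine le_trans (Finset.sum_le_card_nsmul univ _ ((P.htRec P.d : ℝ) * P.lo p'.2 P.d)
      fun l _ => ?_) (le_of_eq ?_)
    · rw [← mul_sub]
      refine le_trans (le_abs_self _) ?_
      rw [abs_mul]
      exact mul_le_mul (abs_le_ht hr' l) (hclose l l.isLt) (abs_nonneg _) (Nat.cast_nonneg _)
    · rw [Finset.card_univ, Fintype.card_fin, nsmul_eq_mul]; ring
  have := lo_final_lt_gap hR.pos p'.2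
  rw [e2]
  linarith

variable (P) in
/-- the convex function -/
noncomputable def lyap (x : Fin P.d → ℝ) : ℝ :=
  open Classical in
  if h : ∀ i, 0 < x i then
    P.val (exists_best (P := P) h).choose (exists_best (P := P) h).choose_spec.choose x else 0

theorem lyap_best {x : Fin P.d → ℝ} (hx : ∀ i, 0 < x i) :
    ∃ p τ, P.IsBest x p τ ∧ P.lyap x = P.val p τ x :=
  ⟨_, _, (exists_best hx).choose_spec.choose_spec, by simp only [lyap, dif_pos hx]⟩

theorem le_lyap {x : Fin P.d → ℝ} (hx : ∀ i, 0 < x i) {p : P.Tag} {τ : Fin P.d → ℝ}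
    (h : P.Dom p.2 τ) : P.val p τ x ≤ P.lyap x := by
  obtain ⟨q, σ, hb, e⟩ := lyap_best (P := P) hx
  rw [e]; exact hb.2 p τ h

theorem lyap_eq {x : Fin P.d → ℝ} (hx : ∀ i, 0 < x i) {p : P.Tag} {τ : Fin P.d → ℝ}
    (h : P.IsBest x p τ) : P.lyap x = P.val p τ x := by
  obtain ⟨q, σ, hb, e⟩ := lyap_best (P := P) hx
  rw [e]; exact le_antisymm (h.2 q σ hb.1) (hb.2 p τ h.1)

/-- a state within `R` of the centre has value zero -/
theorem lyap_center (hR : P.Big) (hM : 1 ≤ P.M) {x : Fin P.d → ℝ} (hx : ∀ i, 0 < x i)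
    (hc : ∀ i, |log (x i)| < P.R) : P.lyap x = 0 := by
  obtain ⟨p, τ, hb, e⟩ := lyap_best (P := P) hx
  have hzero : ∀ i, P.dir p τ i = 0 := by
    intro i
    by_contra hne
    have hsum : ∀ (c : ℤ) (f : Fin P.d → ℝ),
        ∑ l, ((Pi.single i c : Fin P.d → ℤ) l : ℝ) * f l = c * f i := fun c f => by
      rw [Finset.sum_eq_single i (fun l _ hl => by simp [hl]) (by simp)]
      simp
    have hsmall : ∀ c : ℤ, |c| ≤ 1 → ∀ l, |(Pi.single i c : Fin P.d → ℤ) l| ≤ (P.M : ℤ) :=
      fun c hc l => by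
        by_cases hl : l = i
        · subst hl; simp; omega
        · simp [hl]
    rcases lt_or_gt_of_ne hne with h | h
    · have := dir_good hR hx hb (r := Pi.single i (-1)) (hsmall _ (by simp))
        (by rw [hsum]; push_cast; linarith)
      rw [hsum] at this
      push_cast at this
      linarith [neg_le_abs (log (x i)), hc i]
    · have := dir_good hR hx hb (r := Pi.single i 1) (hsmall _ (by simp))
        (by rw [hsum]; push_cast; linarith)
      rw [hsum] at this
      push_cast at this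
      linarith [le_abs_self (log (x i)), hc i]
  have hτ : τ = 0 := by
    funext k
    have := hzero (p.1 k)
    simpa [dir] using this
  subst hτ
  rw [e]
  have hw : p.2 = P.allSnap := by
    funext k
    rcases hb.1.2 k with ⟨hw, -⟩ | ⟨hw, hf⟩
    · exact hw
    · exfalso
      have h1 := hf _ (single_mem k) (by simp)
      simp [rv] at h1
      linarith [R_le_T p.2 (k : ℕ), (Nat.cast_pos (α := ℝ)).mpr hR.pos]
  rw [show p = (p.1, P.allSnap) from Prod.ext rfl hw]
  exact val_zero _ _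

end Par

end Vale.Agent.P072
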