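import Mathlib

/-!
Mass-action systems of finite reaction networks: a reaction is a pair (source, target) of
complexes in `ℕ^d`.
-/

namespace Vale.Agent.P072

/-- the mass-action vector field `∑_{y→y'} k_{y→y'} x^y (y' - y)` -/
noncomputable def massAction {d : ℕ} (R : Finset ((Fin d → ℕ) × (Fin d → ℕ)))
    (k : (Fin d → ℕ) × (Fin d → ℕ) → ℝ) (x : Fin d → ℝ) : Fin d → ℝ :=
  ∑ e ∈ R, (k e * ∏ i, x i ^ e.1 i) • fun i => (e.2 i : ℝ) - (e.1 i : ℝ)

/-- every reaction `y → y'` has a directed path of reactions from `y'` back to `y` -/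
def WeaklyReversible {d : ℕ} (R : Finset ((Fin d → ℕ) × (Fin d → ℕ))) : Prop :=
  ∀ e ∈ R, Relation.ReflTransGen (fun a b => (a, b) ∈ R) e.2 e.1

/-- the span of the reaction vectors `y' - y` -/
def stoichSubspace {d : ℕ} (R : Finset ((Fin d → ℕ) × (Fin d → ℕ))) :
    Submodule ℝ (Fin d → ℝ) :=
  Submodule.span ℝ {v | ∃ e ∈ R, v = fun i => (e.2 i : ℝ) - (e.1 i : ℝ)}

/-- the positive stoichiometric class of `c` -/
def stoichClass {d : ℕ} (R : Finset ((Fin d → ℕ) × (Fin d → ℕ))) (c : Fin d → ℝ) :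
    Set (Fin d → ℝ) :=
  {x | (∀ i, 0 < x i) ∧ x - c ∈ stoichSubspace R}

end Vale.Agent.P072
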