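import Mathlib

/-!
Global solutions inside a compact sublevel set, entry into a smaller one, and uniqueness.
-/

namespace Vale.Agent.P072

open Set

/-- the open positive orthant -/
def orthant (d : ℕ) : Set (Fin d → ℝ) := {x | ∀ i, 0 < x i}

/-- `n` is a subgradient of `W` at `x` on the orthant -/
def Supports {d : ℕ} (W : (Fin d → ℝ) → ℝ) (n : (Fin d → ℝ) →L[ℝ] ℝ) (x : Fin d → ℝ) : Prop :=
  ∀ y ∈ orthant d, W x + n (y - x) ≤ W y

variable {d : ℕ} {f : (Fin d → ℝ) → (Fin d → ℝ)} {S : Submodule ℝ (Fin d → ℝ)}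
  {c x₀ : Fin d → ℝ} {W : (Fin d → ℝ) → ℝ} {Ω : Set (Fin d → ℝ)} {a b : ℝ}

/-- `f` is globally Lipschitz and bounded after clamping to a cube. -/
theorem clamp_lipschitz (hf : ContDiff ℝ 1 f) (R : ℝ) (hR : 0 ≤ R) :
    ∃ K L : NNReal, LipschitzWith K (fun x : Fin d → ℝ => f fun i => max (-R) (min R (x i))) ∧
      ∀ x : Fin d → ℝ, ‖f fun i => max (-R) (min R (x i))‖ ≤ L := by
  have hmem : ∀ x : Fin d → ℝ, (fun i => max (-R) (min R (x i))) ∈ Metric.closedBall 0 R := by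
    intro x
    rw [mem_closedBall_zero_iff, pi_norm_le_iff_of_nonneg hR]
    intro i
    rw [Real.norm_eq_abs, abs_le]
    exact ⟨le_max_left _ _, max_le (by linarith) (min_le_left _ _)⟩
  have hcl : LipschitzWith 1 (fun x : Fin d → ℝ => fun i => max (-R) (min R (x i))) := by
    refine LipschitzWith.of_dist_le_mul fun x y => ?_
    rw [NNReal.coe_one, one_mul, dist_pi_le_iff dist_nonneg]
    intro i
    refine le_trans ?_ (dist_le_pi_dist x y i)
    simpa using (((LipschitzWith.id (α := ℝ)).const_min R).const_max (-R)).dist_le_mul (x i) (y i)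
  obtain ⟨K, hK⟩ := hf.contDiffOn.exists_lipschitzOnWith one_ne_zero (convex_closedBall _ R)
    (isCompact_closedBall _ R)
  obtain ⟨L, hL⟩ := (isCompact_closedBall (0 : Fin d → ℝ) R).exists_bound_of_continuousOn
    hf.continuous.continuousOn
  refine ⟨K, L.toNNReal, LipschitzWith.of_dist_le_mul fun x y => ?_, fun x =>
    (hL _ (hmem x)).trans (Real.le_coe_toNNReal L)⟩
  calc dist (f _) (f _) ≤ K * dist _ _ := hK.dist_le_mul _ (hmem x) _ (hmem y)
    _ ≤ K * dist x y :=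
      mul_le_mul_of_nonneg_left (by simpa using hcl.dist_le_mul x y) K.coe_nonneg

/-- a bounded Lipschitz field has solutions on the whole half line. -/
theorem exists_solution {g : (Fin d → ℝ) → (Fin d → ℝ)} {K L : NNReal} (hg : LipschitzWith K g)
    (hb : ∀ x, ‖g x‖ ≤ L) (x₀ : Fin d → ℝ) :
    ∃ x : ℝ → (Fin d → ℝ), x 0 = x₀ ∧
      ∀ t, 0 ≤ t → HasDerivWithinAt x (g (x t)) (Ici 0) t := by
  have h1 : ∀ n : ℕ, ∃ α : ℝ → (Fin d → ℝ), α 0 = x₀ ∧
      ∀ t ∈ Icc (0 : ℝ) n, HasDerivWithinAt α (g (α t)) (Icc (0 : ℝ) n) t := by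
    intro n
    have hP : IsPicardLindelof (fun _ => g) (tmin := 0) (tmax := (n : ℝ))
        ⟨0, le_rfl, n.cast_nonneg⟩ x₀ (L * n) 0 L K :=
      { lipschitzOnWith := fun _ _ => hg.lipschitzOnWith
        continuousOn := fun _ _ => continuousOn_const
        norm_le := fun _ _ x _ => hb x
        mul_max_le := by simp }
    exact hP.exists_eq_forall_mem_Icc_hasDerivWithinAt₀
  choose α h0 hd using h1
  have agree : ∀ m n : ℕ, ∀ t : ℝ, 0 ≤ t → t ≤ m → t ≤ n → α m t = α n t := by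
    intro m n t ht hm hn
    have hc : ∀ k : ℕ, t ≤ k → ContinuousOn (α k) (Icc 0 t) ∧
        ∀ s ∈ Ico 0 t, HasDerivWithinAt (α k) (g (α k s)) (Ici s) s := by
      intro k hk
      refine ⟨fun s hs => ((hd k s ⟨hs.1, hs.2.trans hk⟩).continuousWithinAt).mono
        (Icc_subset_Icc le_rfl hk), fun s hs => ?_⟩
      exact (hd k s ⟨hs.1, hs.2.le.trans hk⟩).mono_of_mem_nhdsWithin
        (Icc_mem_nhdsGE_of_mem ⟨hs.1, hs.2.trans_le hk⟩)
    exact ODE_solution_unique_of_mem_Icc_right (v := fun _ => g) (s := fun _ => univ) (K := K)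
      (fun _ _ => hg.lipschitzOnWith) (hc m hm).1 (hc m hm).2 (fun _ _ => mem_univ _)
      (hc n hn).1 (hc n hn).2 (fun _ _ => mem_univ _) ((h0 m).trans (h0 n).symm) ⟨ht, le_rfl⟩
  refine ⟨fun t => α (⌈t⌉₊ + 1) t, h0 _, fun t ht => ?_⟩
  set N := ⌈t⌉₊ + 1 with hN
  have htN : t < N := by
    rw [hN]; push_cast; linarith [Nat.le_ceil t]
  have hnb : Icc (0 : ℝ) N ∈ nhdsWithin t (Ici 0) :=
    Filter.mem_of_superset (inter_mem_nhdsWithin (Ici 0) (Iic_mem_nhds htN))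
      fun s hs => ⟨hs.1, hs.2⟩
  refine ((hd N t ⟨ht, htN.le⟩).mono_of_mem_nhdsWithin hnb).congr_of_eventuallyEq ?_ rfl
  filter_upwards [hnb] with s hs
  exact agree _ _ s hs.1 (by push_cast; linarith [Nat.le_ceil s]) hs.2

/-- a descending supporting functional makes `W` larger just before. -/
theorem frequently_left {x : ℝ → (Fin d → ℝ)} {t e : ℝ} {v : Fin d → ℝ}
    {n : (Fin d → ℝ) →L[ℝ] ℝ} (ht : 0 < t) (hx : HasDerivWithinAt x v (Ici 0) t)
    (hn : n v < -e) (hs : Supports W n (x t)) (hmem : ∀ s ∈ Icc 0 t, x s ∈ orthant d) :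
    ∃ s ∈ Ico 0 t, W (x t) + e * (t - s) < W (x s) := by
  have h1 : HasDerivAt (fun s => n (x s)) (n v) t :=
    n.hasFDerivAt.comp_hasDerivAt t (hx.hasDerivAt (Ici_mem_nhds ht))
  have h2 := (hasDerivAt_iff_tendsto_slope.1 h1).eventually (gt_mem_nhds hn)
  have h3 : ∀ᶠ s in nhdsWithin t (Iio t),
      slope (fun s => n (x s)) t s < -e ∧ 0 < s ∧ s < t :=
    (h2.filter_mono (nhdsWithin_mono _ fun s hs => ne_of_lt hs)).and
      ((eventually_gt_nhds ht).filter_mono nhdsWithin_le_nhds |>.and self_mem_nhdsWithin)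
  obtain ⟨s, hsl, hs0, hst⟩ := h3.exists
  refine ⟨s, ⟨hs0.le, hst⟩, ?_⟩
  have h4 := hs (x s) (hmem s ⟨hs0.le, hst.le⟩)
  rw [slope_def_field, div_lt_iff_of_neg (sub_neg.2 hst)] at hsl
  rw [map_sub] at h4
  linarith

/-- a maximum principle. -/
theorem le_max_of_left_increase {ψ : ℝ → ℝ} {T t m : ℝ} (hT : T ≤ t)
    (hc : ContinuousOn ψ (Icc T t))
    (h : ∀ u ∈ Ioc T t, m < ψ u → ∃ s ∈ Ico T u, ψ u < ψ s) : ψ t ≤ max (ψ T) m := by
  obtain ⟨u, hu, hmax⟩ := isCompact_Icc.exists_isMaxOn (nonempty_Icc.2 hT) hc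
  have hle : ψ t ≤ ψ u := hmax ⟨hT, le_rfl⟩
  rcases hu.1.eq_or_lt with e | e
  · exact le_max_of_le_left (e ▸ hle)
  · rcases le_or_gt (ψ u) m with h1 | h1
    · exact le_max_of_le_right (hle.trans h1)
    · obtain ⟨s, hs, hlt⟩ := h u ⟨e, hu.2⟩ h1
      exact absurd (hmax ⟨hs.1, hs.2.le.trans hu.2⟩ : ψ s ≤ ψ u) (not_le.2 hlt)

/-- a solution below `b` exists for all times and stays below its initial level -/
theorem exists_global (hf : ContDiff ℝ 1 f) (hfS : ∀ x, f x ∈ S) (hW : ContinuousOn W (orthant d))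
    (hΩ : IsCompact Ω) (hΩpos : Ω ⊆ orthant d) (hsub : ∀ x ∈ orthant d, W x ≤ b → x ∈ Ω)
    (hx₀ : x₀ ∈ orthant d) (hx₀S : x₀ - c ∈ S) (ha : W x₀ ≤ a) (hab : a < b)
    (hdec : ∀ x ∈ orthant d, x - c ∈ S → a < W x → ∃ n, n (f x) < 0 ∧ Supports W n x) :
    ∃ x : ℝ → (Fin d → ℝ), x 0 = x₀ ∧ ∀ t, 0 ≤ t →
      HasDerivWithinAt x (f (x t)) (Ici 0) t ∧ x t ∈ orthant d ∧ x t - c ∈ S ∧ W (x t) ≤ a := by
  obtain ⟨R, hR⟩ := hΩ.isBounded.subset_closedBall (0 : Fin d → ℝ)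
  obtain ⟨K, L, hK, hL⟩ := clamp_lipschitz hf (max R 0) (le_max_right _ _)
  set g := fun x : Fin d → ℝ => f fun i => max (-(max R 0)) (min (max R 0) (x i)) with hg
  obtain ⟨x, hx0, hx⟩ := exists_solution hK hL x₀
  have hgf : ∀ y ∈ Ω, g y = f y := by
    intro y hy
    show f (fun i => max (-(max R 0)) (min (max R 0) (y i))) = f y
    congr 1
    funext i
    have h1 : |y i| ≤ max R 0 :=
      ((norm_le_pi_norm y i).trans (mem_closedBall_zero_iff.1 (hR hy))).trans (le_max_left _ _)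
    rw [abs_le] at h1
    rw [min_eq_right h1.2, max_eq_right h1.1]
  have hxS : ∀ t, 0 ≤ t → x t - c ∈ S := by
    intro t ht
    obtain ⟨C, hC⟩ := S.exists_isCompl
    set P := LinearMap.toContinuousLinearMap (C.projectionOnto S hC.symm) with hP
    have hker : ∀ y, P y = 0 ↔ y ∈ S := fun y => by
      simp [hP, Submodule.projectionOnto_apply_eq_zero_iff]
    have hd : ∀ u, 0 ≤ u → HasDerivWithinAt (fun u => P (x u - c)) 0 (Ici 0) u := by
      intro u hu
      have h := P.hasFDerivAt.comp_hasDerivWithinAt u ((hx u hu).sub_const c)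
      rw [(hker _).2 (hfS _)] at h
      exact h
    have := constant_of_has_deriv_right_zero (f := fun u => P (x u - c)) (a := 0) (b := t)
      (fun u hu => (hd u hu.1).continuousWithinAt.mono fun _ h => h.1)
      (fun u hu => (hd u hu.1).mono (Ici_subset_Ici.2 hu.1)) t ⟨ht, le_rfl⟩
    rw [hx0, (hker _).2 hx₀S] at this
    exact (hker _).1 this
  have hxc : ContinuousOn x (Ici 0) := fun t ht => (hx t ht).continuousWithinAt
  set U := orthant d ∩ W ⁻¹' Iio b with hUdef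
  have hop : IsOpen (orthant d) := by
    have e : orthant d = univ.pi fun _ => Ioi (0 : ℝ) := by ext y; simp [orthant]
    rw [e]
    exact isOpen_set_pi finite_univ fun _ _ => isOpen_Ioi
  have hU : IsOpen U := hW.isOpen_inter_preimage hop isOpen_Iio
  have hmax : ∀ t, 0 ≤ t → (∀ s ∈ Icc 0 t, x s ∈ U) → W (x t) ≤ a := by
    intro t ht hin
    have h := le_max_of_left_increase (ψ := fun s => W (x s)) (m := a) ht
      (hW.comp (hxc.mono fun _ h => h.1) fun s hs => (hin s hs).1) ?_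
    · rw [hx0, max_eq_right ha] at h
      exact h
    intro u hu hau
    have huU := hin u ⟨hu.1.le, hu.2⟩
    obtain ⟨n, hn, hsup⟩ := hdec _ huU.1 (hxS u hu.1.le) hau
    have hd : HasDerivWithinAt x (f (x u)) (Ici 0) u :=
      hgf _ (hsub _ huU.1 huU.2.le) ▸ hx u hu.1.le
    obtain ⟨s, hs, hlt⟩ := frequently_left (e := 0) hu.1 hd (by simpa using hn) hsup
      fun s hs => (hin s ⟨hs.1, hs.2.trans hu.2⟩).1
    exact ⟨s, hs, by simpa using hlt⟩
  have hall : ∀ t, 0 ≤ t → x t ∈ U := by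
    by_contra hcon
    push Not at hcon
    set B := Ici (0 : ℝ) ∩ x ⁻¹' Uᶜ with hB
    have hBne : B.Nonempty := let ⟨t, h1, h2⟩ := hcon; ⟨t, h1, h2⟩
    have hBc : IsClosed B := hxc.preimage_isClosed_of_isClosed isClosed_Ici hU.isClosed_compl
    have hBb : BddBelow B := ⟨0, fun t h => h.1⟩
    obtain ⟨hτ0, hτU⟩ := hBc.csInf_mem hBne hBb
    set τ := sInf B
    have hτpos : 0 < τ := by
      refine lt_of_le_of_ne hτ0 fun e => hτU ?_
      rw [← e, hx0]
      exact ⟨hx₀, lt_of_le_of_lt ha hab⟩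
    have hbef : ∀ s, 0 ≤ s → s < τ → x s ∈ U := fun s h1 h2 => by
      by_contra h3; exact absurd (csInf_le hBb ⟨h1, h3⟩) (not_le.2 h2)
    have hWa : ∀ s, 0 ≤ s → s < τ → W (x s) ≤ a := fun s h1 h2 =>
      hmax s h1 fun u hu => hbef u hu.1 (lt_of_le_of_lt hu.2 h2)
    have ht : Filter.Tendsto x (nhdsWithin τ (Iio τ)) (nhds (x τ)) :=
      ((hx τ hτ0).continuousWithinAt.continuousAt (Ici_mem_nhds hτpos)).tendsto.mono_left
        nhdsWithin_le_nhds
    have hev : ∀ᶠ s in nhdsWithin τ (Iio τ), 0 ≤ s ∧ s < τ :=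
      ((eventually_ge_nhds hτpos).filter_mono nhdsWithin_le_nhds).and self_mem_nhdsWithin
    have hτΩ : x τ ∈ Ω := hΩ.isClosed.mem_of_tendsto ht
      (hev.mono fun s hs => hsub _ (hbef s hs.1 hs.2).1 (hbef s hs.1 hs.2).2.le)
    have hτo := hΩpos hτΩ
    have hτa : W (x τ) ≤ a :=
      le_of_tendsto (((hW.continuousAt (hop.mem_nhds hτo)).tendsto).comp ht)
        (hev.mono fun s hs => hWa s hs.1 hs.2)
    exact hτU ⟨hτo, lt_of_le_of_lt hτa hab⟩
  refine ⟨x, hx0, fun t ht => ⟨?_, (hall t ht).1, hxS t ht, hmax t ht fun s hs => hall s hs.1⟩⟩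
  exact hgf _ (hsub _ (hall t ht).1 (hall t ht).2.le) ▸ hx t ht

/-- a trajectory in a compact set enters a sublevel set on whose outside it strictly descends -/
theorem eventually_le {x : ℝ → (Fin d → ℝ)} {δ : ℝ} (hδ : 0 < δ)
    (hW : ContinuousOn W (orthant d)) (hΩ : IsCompact Ω) (hΩpos : Ω ⊆ orthant d)
    (hx : ∀ t, 0 ≤ t → HasDerivWithinAt x (f (x t)) (Ici 0) t ∧ x t ∈ Ω)
    (hdec : ∀ t, 0 ≤ t → a < W (x t) → ∃ n, n (f (x t)) ≤ -δ ∧ Supports W n (x t)) :
    ∃ T, 0 ≤ T ∧ ∀ t, T ≤ t → W (x t) ≤ a := by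
  have hxc : ContinuousOn x (Ici 0) := fun t ht => (hx t ht).1.continuousWithinAt
  have hWc : ContinuousOn (fun s => W (x s)) (Ici 0) :=
    hW.comp hxc fun s hs => hΩpos (hx s hs).2
  have hleft : ∀ u, 0 < u → a < W (x u) → ∀ T, T < u →
      ∃ s ∈ Ico (max 0 T) u, W (x u) + δ / 2 * (u - s) < W (x s) := by
    intro u hu hau T hT
    obtain ⟨n, hn, hsup⟩ := hdec u hu.le hau
    have hd : HasDerivWithinAt (fun s => x (s + max 0 T)) (f (x u)) (Ici 0) (u - max 0 T) := by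
      have h := (hx u hu.le).1
      conv at h => arg 4; rw [show u = u - max 0 T + max 0 T by ring]
      exact (h.scomp (h := fun s => s + max 0 T) (u - max 0 T)
        ((hasDerivWithinAt_id _ _).add_const _) (fun s hs => by
          have := le_max_left 0 T; simp only [mem_Ici] at hs ⊢; linarith)).congr_deriv
        (by simp)
    obtain ⟨s, hs, hlt⟩ := frequently_left (W := W) (e := δ / 2)
      (show 0 < u - max 0 T by simp [hu, hT]) hd (lt_of_le_of_lt hn (by linarith))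
      (by simpa using hsup) fun s hs => hΩpos (hx _ (by
        have := hs.1; have := le_max_left 0 T; linarith)).2
    refine ⟨s + max 0 T, ⟨by linarith [hs.1], by linarith [hs.2]⟩, ?_⟩
    simp only [sub_add_cancel] at hlt
    linarith
  obtain ⟨T, hT, hTa⟩ : ∃ T, 0 ≤ T ∧ W (x T) ≤ a := by
    by_contra hcon
    push Not at hcon
    obtain ⟨z, hz, hmin⟩ := hΩ.exists_isMinOn ⟨x 0, (hx 0 le_rfl).2⟩ (hW.mono hΩpos)
    set t := 2 * |W (x 0) - W z| / δ + 1 with htdef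
    have ht : 0 ≤ t := by positivity
    have h := le_max_of_left_increase (ψ := fun s => W (x s) + δ / 2 * s)
      (m := W (x 0)) ht
      ((hWc.mono fun _ h => h.1).add (by fun_prop)) ?_
    · have h2 : W z ≤ W (x t) := hmin (hx t ht).2
      simp only [mul_zero, add_zero, max_self] at h
      have h3 : δ / 2 * t = |W (x 0) - W z| + δ / 2 := by rw [htdef]; field_simp
      linarith [le_abs_self (W (x 0) - W z)]
    intro u hu _
    obtain ⟨s, hs, hlt⟩ := hleft u hu.1 (hcon u hu.1.le) 0 hu.1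
    rw [max_self] at hs
    exact ⟨s, hs, by linarith⟩
  refine ⟨T, hT, fun t ht => ?_⟩
  have h := le_max_of_left_increase (ψ := fun s => W (x s)) (m := a) ht
    (hWc.mono fun s hs => hT.trans hs.1) ?_
  · rwa [max_eq_right hTa] at h
  intro u hu hau
  obtain ⟨s, hs, hlt⟩ := hleft u (hT.trans_lt hu.1) hau T hu.1
  rw [max_eq_right hT] at hs
  exact ⟨s, hs, by linarith [mul_nonneg (half_pos hδ).le (sub_nonneg.2 hs.2.le)]⟩

/-- uniqueness on half-open intervals -/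
theorem solution_unique (hf : ContDiff ℝ 1 f) {x y : ℝ → (Fin d → ℝ)} {T : ℝ} (h0 : y 0 = x 0)
    (hx : ∀ t, 0 ≤ t → t < T → HasDerivWithinAt x (f (x t)) (Ici 0) t)
    (hy : ∀ t, 0 ≤ t → t < T → HasDerivWithinAt y (f (y t)) (Ico 0 T) t) :
    ∀ t, 0 ≤ t → t < T → y t = x t := by
  intro t ht0 htT
  have hxc : ContinuousOn x (Icc 0 t) := fun s hs =>
    (hx s hs.1 (lt_of_le_of_lt hs.2 htT)).continuousWithinAt.mono fun _ h => h.1
  have hyc : ContinuousOn y (Icc 0 t) := fun s hs =>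
    (hy s hs.1 (lt_of_le_of_lt hs.2 htT)).continuousWithinAt.mono fun _ h =>
      ⟨h.1, lt_of_le_of_lt h.2 htT⟩
  obtain ⟨R, hR⟩ := ((isCompact_Icc.image_of_continuousOn hxc).union
    (isCompact_Icc.image_of_continuousOn hyc)).isBounded.subset_closedBall (0 : Fin d → ℝ)
  obtain ⟨K, hK⟩ := hf.contDiffOn.exists_lipschitzOnWith one_ne_zero (convex_closedBall _ R)
    (isCompact_closedBall (0 : Fin d → ℝ) R)
  refine ODE_solution_unique_of_mem_Icc_right (v := fun _ => f)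
    (s := fun _ => Metric.closedBall 0 R) (fun _ _ => hK) hyc ?_ ?_ hxc ?_ ?_ h0 ⟨ht0, le_rfl⟩
  · exact fun s hs => (hy s hs.1 (hs.2.trans htT)).mono_of_mem_nhdsWithin
      (Ico_mem_nhdsGE_of_mem ⟨hs.1, hs.2.trans htT⟩)
  · exact fun s hs => hR (Or.inr ⟨s, ⟨hs.1, hs.2.le⟩, rfl⟩)
  · exact fun s hs => (hx s hs.1 (hs.2.trans htT)).mono (Ici_subset_Ici.2 hs.1)
  · exact fun s hs => hR (Or.inl ⟨s, ⟨hs.1, hs.2.le⟩, rfl⟩)

end Vale.Agent.P072
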