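import Vale.Agent.P072.Best

/-!
The sublevel sets of the convex function are confined in boxes, it is convex, and strict descent
along maximisers is uniform on compact sets.
-/

namespace Vale.Agent.P072

open Finset Real

namespace Par

variable {P : Par}

/-- affine in the state -/
theorem val_sub (p : P.Tag) (τ x y : Fin P.d → ℝ) :
    P.val p τ y - P.val p τ x = ∑ i, P.dir p τ i * (y i - x i) := by
  have e : ∑ i, P.dir p τ i * (y i - x i)
      = ∑ i, y i * P.dir p τ i - ∑ i, x i * P.dir p τ i := by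
    rw [← Finset.sum_sub_distrib]
    exact Finset.sum_congr rfl fun i _ => by ring
  rw [val_eq_dir, val_eq_dir, e]
  ring

theorem convex_pos : Convex ℝ {x : Fin P.d → ℝ | ∀ i, 0 < x i} := by
  rw [Set.ofPred_forall]
  exact convex_iInter fun i => convex_halfSpace_gt (LinearMap.proj i).isLinear 0

theorem isOpen_pos : IsOpen {x : Fin P.d → ℝ | ∀ i, 0 < x i} := by
  rw [Set.ofPred_forall]
  exact isOpen_iInter_of_finite fun i => isOpen_lt continuous_const (continuous_apply i)

theorem lyap_continuousOn : ContinuousOn P.lyap {x : Fin P.d → ℝ | ∀ i, 0 < x i} := by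
  refine ConvexOn.continuousOn isOpen_pos ⟨convex_pos, fun x hx y hy a b ha hb hab => ?_⟩
  have hz : ∀ i, 0 < (a • x + b • y) i := convex_pos hx hy ha hb hab
  obtain ⟨p, τ, hbst, e⟩ := lyap_best (P := P) hz
  have h1 := mul_le_mul_of_nonneg_left (le_lyap (P := P) hx (p := p) hbst.1) ha
  have h2 := mul_le_mul_of_nonneg_left (le_lyap (P := P) hy (p := p) hbst.1) hb
  have h3 : P.val p τ (a • x + b • y) = a * P.val p τ x + b * P.val p τ y := by
    simp only [val, Pi.add_apply, Pi.smul_apply, smul_eq_mul, add_mul, Finset.sum_add_distrib,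
      mul_assoc, ← Finset.mul_sum]
    linear_combination (P.pen p.2 τ - P.base) * hab
  rw [e, h3, smul_eq_mul, smul_eq_mul]
  linarith

/-- a positive level whose sublevel set lies in a box inside the orthant -/
theorem exists_box (hR : P.Big) :
    ∃ b δ m : ℝ, 0 < b ∧ 0 < δ ∧
      ∀ x : Fin P.d → ℝ, (∀ i, 0 < x i) → P.lyap x ≤ b → ∀ i, δ ≤ x i ∧ x i ≤ m := by
  classical
  rcases Nat.eq_zero_or_pos P.d with hd | hd
  · exact ⟨1, 1, 1, one_pos, one_pos, fun x _ _ i => absurd i.isLt (by omega)⟩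
  set last : Fin P.d := ⟨P.d - 1, by omega⟩ with hlast
  set first : Fin P.d := ⟨0, hd⟩ with hfirst
  have hR0 : (0 : ℝ) < P.R := Nat.cast_pos.mpr hR.pos
  -- the competitor falling at the last coordinate
  set T := P.T P.allSnap last
  set G := exp (-T) * (1 - exp (-1))
  have hG : 0 < G := mul_pos (exp_pos _) (sub_pos.mpr (exp_lt_one_iff.mpr (by norm_num)))
  set w₁ : Fin P.d → Bool := Function.update P.allSnap last false
  set τ₁ : Fin P.d → ℝ := Pi.single last (-(T + 1))
  have hT₁ : P.T w₁ last = T := P.T_congr fun l hl =>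
    Function.update_of_ne (fun e => by rw [e] at hl; omega) _ _
  have hTn : 0 ≤ T := T_nonneg _ _
  have hle : ∀ l : Fin P.d, l ≤ last := fun l => Fin.le_def.mpr (by simp [hlast]; omega)
  have hdom₁ : P.Dom w₁ τ₁ := by
    refine ⟨fun i j hij => ?_, fun k => ?_⟩
    · rcases eq_or_ne j last with rfl | hj
      · rcases eq_or_ne i last with rfl | hi
        · exact le_rfl
        · simp [τ₁, hi]; linarith
      · have hi : i ≠ last := fun e => hj (le_antisymm (hle j) (e ▸ hij))
        simp [τ₁, hi, hj]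
    · rcases eq_or_ne k last with rfl | hk
      · refine Or.inr ⟨by simp [w₁], fun r hr hr0 => ?_⟩
        have e : rv r τ₁ = (r last : ℝ) * -(T + 1) := by
          rw [rv, Finset.sum_eq_single last (fun l _ hl => by simp [τ₁, hl]) (by simp)]
          simp [τ₁]
        rw [e, hT₁, abs_mul, abs_neg, abs_of_nonneg (by linarith : (0 : ℝ) ≤ T + 1)]
        nlinarith [abs_nonneg (r last : ℝ)]
      · exact Or.inl ⟨by simp [w₁, hk, allSnap], _, single_mem k, by simp, by
          rw [rv_single]; simp [τ₁, hk]⟩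
  have hpen₁ : P.pen w₁ τ₁ - P.base = -G := by
    have hsum : ∀ k ∈ univ, k ≠ last →
        P.wt w₁ k * exp (τ₁ k) - P.wt P.allSnap k * exp ((0 : Fin P.d → ℝ) k) = 0 := by
      intro k _ hk
      have e1 : P.T w₁ k = P.T P.allSnap k := P.T_congr fun l hl =>
        Function.update_of_ne (fun e => by
          rw [e] at hl; have := Fin.le_def.mp (hle k); omega) _ _
      simp [wt, w₁, hk, τ₁, e1, allSnap]
    rw [base, pen, pen, ← Finset.sum_sub_distrib, Finset.sum_eq_single last hsum (by simp)]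
    simp only [wt, w₁, τ₁, allSnap, Function.update_self, Pi.single_eq_same, Pi.zero_apply,
      exp_zero, mul_one, Bool.false_eq_true, if_false, if_true, one_mul]
    rw [show -(T + 1) = -T + -1 by ring, exp_add]
    simp only [G]
    ring
  -- the competitor with all coordinates equal
  set w₀ : Fin P.d → Bool := Function.update P.allSnap first false
  set t := P.T w₀ first
  have ht : 0 < t := lt_of_lt_of_le hR0 (R_le_T _ _)
  have hdom₀ : P.Dom w₀ (fun _ => t) := by
    refine ⟨fun _ _ _ => le_rfl, fun k => ?_⟩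
    rcases eq_or_ne k first with rfl | hk
    · refine Or.inr ⟨by simp [w₀], fun r hr _ => ?_⟩
      have e : rv r (fun _ => t) = (r first : ℝ) * t := by
        rw [rv, Finset.sum_eq_single first (fun l _ hl => ?_) (by simp)]
        have : r l = 0 := (mem_forms.mp hr).2 l (by
          have : (l : ℕ) ≠ 0 := fun h => hl (Fin.ext h)
          simp [hfirst]; omega)
        simp [this]
      rw [e, abs_mul, abs_of_pos ht, mul_comm]
    · have hlt : first < k := Fin.lt_def.mpr (by
        have : (k : ℕ) ≠ 0 := fun h => hk (Fin.ext h)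
        simp [hfirst]; omega)
      exact Or.inl ⟨by simp [w₀, hk, allSnap], _, diff_mem hlt, by simp [hlt.ne'], by
        rw [rv_diff, sub_self]⟩
  refine ⟨G / 2, G / (2 * (T + 1)), (G / 2 + |P.pen w₀ (fun _ => t) - P.base|) / t,
    by positivity, by positivity, fun x hx hb i => ⟨?_, ?_⟩⟩
  · have h := le_lyap (P := P) hx (p := (Equiv.swap last i, w₁)) hdom₁
    have e : ∑ k, x (Equiv.swap last i k) * τ₁ k = x i * -(T + 1) := by
      rw [Finset.sum_eq_single last (fun l _ hl => by simp [τ₁, hl]) (by simp)]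
      simp [τ₁]
    simp only [val, e] at h
    rw [div_le_iff₀ (by positivity)]
    linarith
  · have h := le_lyap (P := P) hx (p := (1, w₀)) hdom₀
    simp only [val, Equiv.Perm.coe_one, id, ← Finset.sum_mul] at h
    have hxi : x i ≤ ∑ l, x l := single_le_sum (fun l _ => (hx l).le) (mem_univ i)
    have h2 := mul_le_mul_of_nonneg_right hxi ht.le
    rw [le_div_iff₀ ht]
    linarith [le_abs_self (P.pen w₀ (fun _ => t) - P.base)]

/-- strict descent along maximisers is uniform on compact sets -/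
theorem exists_margin {Z : Set (Fin P.d → ℝ)} (hZ : IsCompact Z) {δ₀ m : ℝ} (hδ₀ : 0 < δ₀)
    (hbox : ∀ x ∈ Z, ∀ i, δ₀ ≤ x i ∧ x i ≤ m) {f : (Fin P.d → ℝ) → Fin P.d → ℝ}
    (hf : Continuous f)
    (hneg : ∀ x ∈ Z, ∀ p τ, P.IsBest x p τ → ∑ i, P.dir p τ i * f x i < 0) :
    ∃ δ, 0 < δ ∧ ∀ x ∈ Z, ∀ p τ, P.IsBest x p τ → ∑ i, P.dir p τ i * f x i ≤ -δ := by
  classical
  obtain ⟨B, hB⟩ := bound_of_val_nonneg (P := P) (m := m) hδ₀
  have key : ∀ p : P.Tag, ∃ δ, 0 < δ ∧ ∀ x ∈ Z, ∀ τ, P.IsBest x p τ →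
      ∑ i, P.dir p τ i * f x i ≤ -δ := by
    intro p
    set U : Set ((Fin P.d → ℝ) × (Fin P.d → ℝ)) :=
      (Z ×ˢ Set.Icc (fun _ => -B) fun _ => B) ∩ {q | P.IsBest q.1 p q.2}
    have hclosed : IsClosed {q : (Fin P.d → ℝ) × (Fin P.d → ℝ) | P.IsBest q.1 p q.2} := by
      refine IsClosed.inter ((isClosed_dom p.2).preimage continuous_snd) ?_
      show IsClosed {v : (Fin P.d → ℝ) × (Fin P.d → ℝ) | ∀ (q : P.Tag) (σ : Fin P.d → ℝ),
        P.Dom q.2 σ → P.val q σ v.1 ≤ P.val p v.2 v.1}
      simp only [Set.ofPred_forall]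
      exact isClosed_iInter fun q => isClosed_iInter fun σ => isClosed_iInter fun _ =>
        isClosed_le ((continuous_val q).comp (continuous_const.prodMk continuous_fst))
          ((continuous_val p).comp (continuous_snd.prodMk continuous_fst))
    have hU : IsCompact U := (hZ.prod isCompact_Icc).inter_right hclosed
    have hφ : Continuous fun q : (Fin P.d → ℝ) × (Fin P.d → ℝ) =>
        ∑ i, P.dir p q.2 i * f q.1 i := by
      unfold dir
      fun_prop
    have hin : ∀ x ∈ Z, ∀ τ, P.IsBest x p τ → (x, τ) ∈ U := fun x hx τ h =>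
      ⟨⟨hx, fun k => (abs_le.mp (hB p τ x (hbox x hx) (isBest_val_nonneg h) k)).1,
        fun k => (abs_le.mp (hB p τ x (hbox x hx) (isBest_val_nonneg h) k)).2⟩, h⟩
    rcases U.eq_empty_or_nonempty with he | hne
    · refine ⟨1, one_pos, fun x hx τ h => absurd (hin x hx τ h) ?_⟩
      simp [he]
    · obtain ⟨q, hq, hmax⟩ := hU.exists_isMaxOn hne hφ.continuousOn
      refine ⟨-(∑ i, P.dir p q.2 i * f q.1 i), neg_pos.mpr (hneg _ hq.1.1 _ _ hq.2),
        fun x hx τ h => ?_⟩
      rw [neg_neg]
      exact hmax (hin x hx τ h)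
  choose δ hδ0 hδ using key
  refine ⟨univ.inf' univ_nonempty δ, (Finset.lt_inf'_iff _).mpr fun p _ => hδ0 p,
    fun x hx p τ h => ?_⟩
  exact (hδ p x hx τ h).trans (neg_le_neg (Finset.inf'_le _ (mem_univ p)))

end Par

end Vale.Agent.P072
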