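import Vale.Agent.P072.Scales

/-!
The convex function built from the admissible ordered vectors, and the location of its maximisers:
each coordinate follows the logarithm of the state up to the current error bound.
-/

namespace Vale.Agent.P072

open Finset Real

namespace Par

variable (P : Par)

/-- weight of stage `k` -/
noncomputable def wt (w : Fin P.d → Bool) (k : Fin P.d) : ℝ :=
  if w k then exp (-P.T w k) else 1

/-- the all-snapped history -/
def allSnap : Fin P.d → Bool := fun _ => true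

/-- the penalty of a vector -/
noncomputable def pen (w : Fin P.d → Bool) (τ : Fin P.d → ℝ) : ℝ := ∑ k, P.wt w k * exp (τ k)

/-- the penalty of the origin -/
noncomputable def base : ℝ := P.pen P.allSnap 0

/-- an ordering of the coordinates together with a history -/
abbrev Tag : Type := Equiv.Perm (Fin P.d) × (Fin P.d → Bool)

/-- the affine function of a tagged vector -/
noncomputable def val (p : P.Tag) (τ x : Fin P.d → ℝ) : ℝ :=
  ∑ k, x (p.1 k) * τ k - P.pen p.2 τ + P.base

/-- a tagged vector maximising at `x` -/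
def IsBest (x : Fin P.d → ℝ) (p : P.Tag) (τ : Fin P.d → ℝ) : Prop :=
  P.Dom p.2 τ ∧ ∀ q σ, P.Dom q.2 σ → P.val q σ x ≤ P.val p τ x

/-- the parameters are large enough -/
def Big : Prop := 20 * (P.d + 1) * (P.K ^ (2 ^ (P.d + 1)) + 1) ≤ P.R

/-- the direction in the original coordinates -/
def dir (p : P.Tag) (τ : Fin P.d → ℝ) : Fin P.d → ℝ := fun i => τ (p.1.symm i)

variable {P}

theorem Big.pos (h : P.Big) : 0 < P.R := by
  unfold Big at h
  have : 0 < 20 * (P.d + 1) * (P.K ^ (2 ^ (P.d + 1)) + 1) := by positivity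
  omega

theorem Big.real (h : P.Big) :
    20 * ((P.d : ℝ) + 1) * ((P.K : ℝ) ^ (2 ^ (P.d + 1)) + 1) ≤ P.R := by
  unfold Big at h
  exact_mod_cast h

theorem wt_pos (w : Fin P.d → Bool) (k : Fin P.d) : 0 < P.wt w k := by
  unfold wt; split_ifs <;> positivity

theorem val_eq_dir (p : P.Tag) (τ x : Fin P.d → ℝ) :
    P.val p τ x = ∑ i, x i * P.dir p τ i - P.pen p.2 τ + P.base := by
  rw [val, ← Equiv.sum_comp p.1 (fun i => x i * P.dir p τ i)]
  simp [dir]

/-- unit form at a coordinate -/
theorem single_mem (k : Fin P.d) : (Pi.single k 1 : Fin P.d → ℤ) ∈ P.forms ((k : ℕ) + 1) := by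
  refine mem_forms.mpr ⟨fun l => ?_, fun l hl => ?_⟩
  · have := P.one_le_ht ((k : ℕ) + 1)
    by_cases h : l = k <;> simp [h]
    omega
  · exact Pi.single_eq_of_ne (fun e => by rw [e] at hl; omega) _

theorem rv_single (k : Fin P.d) (τ : Fin P.d → ℝ) :
    rv (Pi.single k 1 : Fin P.d → ℤ) τ = τ k := by
  rw [rv, Finset.sum_eq_single k (fun l _ hl => by simp [hl]) (by simp)]
  simp

/-- difference form of two coordinates -/
theorem diff_mem {j k : Fin P.d} (hjk : j < k) :
    (Pi.single k 1 - Pi.single j 1 : Fin P.d → ℤ) ∈ P.forms ((k : ℕ) + 1) := by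
  refine mem_forms.mpr ⟨fun l => ?_, fun l hl => ?_⟩
  · have := P.one_le_ht ((k : ℕ) + 1)
    by_cases h : l = k
    · subst h; simp [hjk.ne']; omega
    · by_cases h' : l = j
      · subst h'; simp [h]; omega
      · simp [h, h']
  · have h1 : l ≠ k := fun e => by rw [e] at hl; omega
    have h2 : l ≠ j := fun e => by rw [e] at hl; omega
    simp [h1, h2]

theorem rv_diff (j k : Fin P.d) (τ : Fin P.d → ℝ) :
    rv (Pi.single k 1 - Pi.single j 1 : Fin P.d → ℤ) τ = τ k - τ j := by
  rw [← rv_single k τ, ← rv_single j τ]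
  simp only [rv, Pi.sub_apply, Int.cast_sub, sub_mul, Finset.sum_sub_distrib]

theorem dom_zero : P.Dom P.allSnap 0 :=
  ⟨fun _ _ _ => le_rfl, fun k => Or.inl ⟨rfl, Pi.single k 1, single_mem k, by simp, by
    rw [rv_single]; rfl⟩⟩

theorem val_zero (σ : Equiv.Perm (Fin P.d)) (x : Fin P.d → ℝ) :
    P.val (σ, P.allSnap) 0 x = 0 := by
  simp [val, base]

/-- the threshold of the all-snapped history never exceeds the top scale -/
theorem log_le_R {u : ℝ} (hu : 0 ≤ u) (hR : P.Big)
    (h : exp u ≤ 5 * ((P.d : ℝ) + 1) * (u + (P.R : ℝ) * (P.K : ℝ) ^ (2 ^ (P.d + 1)))) :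
    u ≤ P.R := by
  by_contra hc
  push Not at hc
  have hb := hR.real
  have h2 := Real.quadratic_le_exp_of_nonneg hu
  have hd : (1 : ℝ) ≤ (P.d : ℝ) + 1 := by linarith [show (0 : ℝ) ≤ P.d from Nat.cast_nonneg _]
  have hK : (0 : ℝ) ≤ (P.K : ℝ) ^ (2 ^ (P.d + 1)) := by positivity
  set B := (P.K : ℝ) ^ (2 ^ (P.d + 1))
  have h3 : (P.R : ℝ) * B ≤ u * B := mul_le_mul_of_nonneg_right hc.le hK
  have h4 : u ^ 2 / 2 ≤ 5 * ((P.d : ℝ) + 1) * (B + 1) * u := by
    have h5 := mul_le_mul_of_nonneg_left h3 (show 0 ≤ 5 * ((P.d : ℝ) + 1) by positivity)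
    nlinarith
  nlinarith

/-- values on the coordinates of the competitor -/
def comp (τ : Fin P.d → ℝ) (k : Fin P.d) (v : ℝ) : Fin P.d → ℝ :=
  fun l => if l < k then τ l else v

theorem sum_split {f : Fin P.d → ℝ} (k : Fin P.d) :
    ∑ l, f l = ∑ l ∈ univ.filter (· < k), f l + f k + ∑ l ∈ univ.filter (k < ·), f l := by
  rw [← Finset.sum_filter_add_sum_filter_not univ (fun l => l < k), add_assoc]
  congr 1
  rw [← Finset.sum_filter_add_sum_filter_not (univ.filter fun l => ¬ l < k) (fun l => l = k)]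
  rw [Finset.filter_filter, Finset.filter_filter]
  have e1 : (univ.filter fun l : Fin P.d => ¬ l < k ∧ l = k) = {k} := by
    ext l; simp +contextual
  have e2 : (univ.filter fun l : Fin P.d => ¬ l < k ∧ ¬ l = k) = univ.filter (k < ·) := by
    ext l
    simp only [mem_filter, mem_univ, true_and]
    exact ⟨fun h => lt_of_le_of_ne (not_lt.mp h.1) (Ne.symm h.2),
      fun h => ⟨not_lt.mpr h.le, h.ne'⟩⟩
  rw [e1, e2, Finset.sum_singleton]

/-- the competitor of stage `k` -/
theorem exists_competitor (hR : P.Big) {w : Fin P.d → Bool} {τ X : Fin P.d → ℝ}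
    (hdom : P.Dom w τ) (hX : ∀ i j, i ≤ j → X j ≤ X i) (k : Fin P.d)
    (herr : ∀ l, l < k → |τ l - X l| ≤ P.lo w k) :
    ∃ (w' : Fin P.d → Bool) (v : ℝ), (∀ l, l < k → w' l = w l) ∧ P.Dom w' (comp τ k v) ∧
      |v - X k| ≤ P.T w k ∧
      (∀ i, k ≤ i → P.wt w' i * exp v ≤ exp (X k)) ∧
      (v = X k ∨ ∃ r ∈ P.forms ((k : ℕ) + 1), r k ≠ 0 ∧ pre r τ k + r k * v = 0 ∧
        |v - X k| < P.T w k) := by
  classical
  have hT := R_le_T w (k : ℕ)
  have hTnn := T_nonneg w (k : ℕ)
  have hlo := four_lo_lt_T hR.pos w (k : ℕ)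
  have hlo0 := R_le_lo w (k : ℕ)
  have hRn : (0 : ℝ) ≤ P.R := Nat.cast_nonneg _
  have hgap := two_T_add_lo_lt hR.pos w k.isLt
  have hg := gap_dichotomy hdom k.isLt.le
  have hX' : ∀ l, l < k → X k ≤ τ l + P.lo w k := fun l hl => by
    have h1 := hX l k hl.le
    have h2 := abs_le.mp (herr l hl)
    linarith
  -- the value and the decision
  obtain ⟨v, snap, hv, hle, hk⟩ : ∃ (v : ℝ) (snap : Bool),
      (v = X k ∧ snap = false ∨ ∃ r ∈ P.forms ((k : ℕ) + 1), r k ≠ 0 ∧
        pre r τ k + r k * v = 0 ∧ |v - X k| < P.T w k ∧ snap = true) ∧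
      (∀ l, l < k → v ≤ τ l) ∧
      ((snap = true ∧ ∃ r ∈ P.forms ((k : ℕ) + 1), r k ≠ 0 ∧ pre r τ k + r k * v = 0) ∨
        (snap = false ∧ ∀ r ∈ P.forms ((k : ℕ) + 1), r k ≠ 0 →
          P.T w k * |(r k : ℝ)| ≤ |pre r τ k + r k * v|)) := by
    by_cases hA : ∃ r ∈ P.forms ((k : ℕ) + 1), r k ≠ 0 ∧
        |pre r τ k + r k * X k| < P.T w k * |(r k : ℝ)|
    · obtain ⟨r, hr, hr0, hlt⟩ := hA
      have hr0' : (r k : ℝ) ≠ 0 := by exact_mod_cast hr0
      refine ⟨-pre r τ k / r k, true, Or.inr ⟨r, hr, hr0, by field_simp; ring, ?_, rfl⟩, ?_,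
        Or.inl ⟨rfl, r, hr, hr0, by field_simp; ring⟩⟩
      · rw [show -pre r τ k / r k - X k = -(pre r τ k + r k * X k) / r k by field_simp; ring,
          abs_div, abs_neg, div_lt_iff₀ (abs_pos.mpr hr0')]
        exact hlt
      · intro l hl
        by_contra hc
        push Not at hc
        have hs := diff_mem hl
        have he := hg _ (elim_mem (k := k) hr hs)
        have e1 : rv (elim r (Pi.single k 1 - Pi.single l 1) k) τ = pre r τ k + r k * τ l := by
          rw [rv_elim, rv_diff, rv_eq_pre hr]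
          simp [hl.ne']; ring
        rw [e1] at he
        set p := -pre r τ k / r k with hp
        have e2 : pre r τ k + r k * τ l = r k * (τ l - p) := by rw [hp]; field_simp; ring
        rw [e2, abs_mul] at he
        have hd : |τ l - p| < P.T w k + P.lo w k := by
          rw [abs_sub_comm, abs_of_pos (by linarith)]
          have : p - X k < P.T w k := by
            have e3 : p - X k = -(pre r τ k + r k * X k) / r k := by rw [hp]; field_simp; ring
            refine lt_of_le_of_lt (le_abs_self _) ?_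
            rw [e3, abs_div, abs_neg, div_lt_iff₀ (abs_pos.mpr hr0')]
            exact hlt
          linarith [hX' l hl]
        rcases he with he | he
        · rcases mul_eq_zero.mp he with he | he
          · exact hr0' he
          · linarith
        · have := mul_le_mul (abs_le_ht hr k) hd.le (abs_nonneg _) (Nat.cast_nonneg _)
          linarith
    · push Not at hA
      refine ⟨X k, false, Or.inl ⟨rfl, rfl⟩, fun l hl => ?_, Or.inr ⟨rfl, hA⟩⟩
      by_contra hc
      push Not at hc
      have h1 := hA _ (diff_mem hl) (by simp [hl.ne'])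
      have e : pre (Pi.single k 1 - Pi.single l 1 : Fin P.d → ℤ) τ k +
          ((Pi.single k 1 - Pi.single l 1 : Fin P.d → ℤ) k : ℝ) * X k = X k - τ l := by
        have h := rv_diff l k (Function.update τ k (X k))
        rw [rv_eq_pre (diff_mem hl), Function.update_self,
          Function.update_of_ne hl.ne, pre_congr (τ' := τ)] at h
        · exact h
        · exact fun m hm => Function.update_of_ne hm.ne _ _
      rw [e] at h1
      simp [hl.ne'] at h1
      rw [abs_of_pos (by linarith)] at h1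
      linarith [hX' l hl]
  let w' : Fin P.d → Bool := fun l => if l < k then w l else if l = k then snap else true
  have hw' : ∀ l, l < k → w' l = w l := fun l hl => by simp [w', hl]
  have hwk : w' k = snap := by simp [w']
  have hTk : P.T w' k = P.T w k := P.T_congr fun l hl => hw' l hl
  have hval : |v - X k| ≤ P.T w k := by
    rcases hv with ⟨h, -⟩ | ⟨r, -, -, -, h, -⟩
    · rw [h, sub_self, abs_zero]; exact hTnn
    · exact h.le
  refine ⟨w', v, hw', ⟨?_, ?_⟩, hval, ?_, ?_⟩
  · intro i j hij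
    simp only [comp]
    split_ifs with h1 h2
    · exact hdom.1 i j hij
    · exact absurd (lt_of_le_of_lt hij h1) h2
    · exact hle i ‹_›
    · exact le_rfl
  · intro i
    rcases lt_trichotomy i k with hi | rfl | hi
    · have hc : ∀ l, l < i → comp τ k v l = τ l := fun l hl => if_pos (hl.trans hi)
      have hself : comp τ k v i = τ i := if_pos hi
      have hTi : P.T w' i = P.T w i := P.T_congr fun l hl => hw' l ((Fin.lt_def.mpr hl).trans hi)
      have hrv : ∀ r ∈ P.forms ((i : ℕ) + 1), rv r (comp τ k v) = rv r τ := fun r hr => by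
        rw [rv_eq_pre hr, rv_eq_pre hr, pre_congr hc, hself]
      rcases hdom.2 i with ⟨hw, r, hr, hr0, hrv0⟩ | ⟨hw, hf⟩
      · exact Or.inl ⟨by rw [hw' i hi, hw], r, hr, hr0, by rw [hrv r hr, hrv0]⟩
      · exact Or.inr ⟨by rw [hw' i hi, hw], fun r hr hr0 => by rw [hrv r hr, hTi]; exact hf r hr hr0⟩
    · have hrv : ∀ r ∈ P.forms ((i : ℕ) + 1), rv r (comp τ i v) = pre r τ i + r i * v :=
        fun r hr => by
          rw [rv_eq_pre hr, pre_congr (τ' := τ) (τ := comp τ i v) fun l hl => if_pos hl]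
          simp [comp]
      rcases hk with ⟨hs, r, hr, hr0, hz⟩ | ⟨hs, hf⟩
      · exact Or.inl ⟨by rw [hwk, hs], r, hr, hr0, by rw [hrv r hr, hz]⟩
      · exact Or.inr ⟨by rw [hwk, hs], fun r hr hr0 => by rw [hrv r hr, hTk]; exact hf r hr hr0⟩
    · refine Or.inl ⟨by simp [w', hi.not_gt, hi.ne'], _, diff_mem hi, by simp [hi.ne'], ?_⟩
      rw [rv_diff]
      simp [comp, hi.not_gt]
  · intro i hi
    rcases eq_or_lt_of_le hi with rfl | hlt
    · rcases hv with ⟨h, hs⟩ | ⟨r, -, -, -, h, hs⟩
      · simp [wt, hwk, hs, h]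
      · rw [wt, hwk, hs, if_pos rfl, hTk, ← exp_add]
        exact exp_le_exp.mpr (by linarith [abs_le.mp h.le])
    · have hwi : w' i = true := by simp [w', hlt.not_gt, hlt.ne']
      rw [wt, hwi, if_pos rfl, ← exp_add]
      refine exp_le_exp.mpr ?_
      rcases hv with ⟨h, -⟩ | ⟨r, -, -, -, h, hs⟩
      · linarith [T_nonneg w' (i : ℕ)]
      · have := T_le_of_snap (w := w') (by rw [hwk, hs]) hlt
        rw [hTk] at this
        linarith [abs_le.mp h.le]
  · rcases hv with ⟨h, -⟩ | ⟨r, hr, hr0, hz, h, -⟩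
    · exact Or.inl h
    · exact Or.inr ⟨r, hr, hr0, hz, h⟩

/-- the stage bound -/
theorem best_step (hR : P.Big) {x : Fin P.d → ℝ} (hx : ∀ i, 0 < x i) {p : P.Tag}
    {τ : Fin P.d → ℝ} (hbest : P.IsBest x p τ) (hsort : Antitone (x ∘ p.1)) (k : Fin P.d)
    (herr : ∀ l, l < k → |τ l - log (x (p.1 l))| ≤ P.lo p.2 k) :
    |τ k - log (x (p.1 k))| ≤ P.lo p.2 ((k : ℕ) + 1) := by
  classical
  obtain ⟨σ, w⟩ := p
  dsimp only at hsort herr ⊢
  set X : Fin P.d → ℝ := fun l => log (x (σ l)) with hXdef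
  have hX : ∀ i j, i ≤ j → X j ≤ X i := fun i j hij => log_le_log (hx _) (hsort hij)
  have hdom : P.Dom w τ := hbest.1
  obtain ⟨w', v, hw', hdom', hD, hwv, hcase⟩ := exists_competitor hR hdom hX k herr
  have hmax := hbest.2 (σ, w') (comp τ k v) hdom'
  simp only [val, pen] at hmax
  have hsplit : ∀ f : Fin P.d → ℝ, ∑ l, f l
      = ∑ l ∈ univ.filter (· < k), f l + ∑ l ∈ univ.filter (fun l => ¬ l < k), f l := fun f =>
    (Finset.sum_filter_add_sum_filter_not univ (· < k) f).symm
  set U := univ.filter fun l : Fin P.d => ¬ l < k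
  have hpre : ∑ l ∈ univ.filter (· < k), (x (σ l) * τ l - P.wt w l * exp (τ l))
      = ∑ l ∈ univ.filter (· < k),
          (x (σ l) * comp τ k v l - P.wt w' l * exp (comp τ k v l)) := by
    refine Finset.sum_congr rfl fun l hl => ?_
    have hlk := (Finset.mem_filter.mp hl).2
    have ec : comp τ k v l = τ l := if_pos hlk
    have ew : P.wt w' l = P.wt w l := by
      simp only [wt, hw' l hlk, P.T_congr (w := w') (w' := w)
        fun m hm => hw' m ((Fin.lt_def.mpr hm).trans hlk)]
    rw [ec, ew]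
  have hcomp : ∀ l ∈ U, comp τ k v l = v := fun l hl => if_neg (Finset.mem_filter.mp hl).2
  have key : ∑ l ∈ U, (x (σ l) * v - P.wt w' l * exp v)
      ≤ ∑ l ∈ U, (x (σ l) * τ l - P.wt w l * exp (τ l)) := by
    rw [← Finset.sum_sub_distrib, ← Finset.sum_sub_distrib, hsplit, hsplit, ← hpre] at hmax
    rw [Finset.sum_congr rfl (g := fun l => x (σ l) * comp τ k v l
      - P.wt w' l * exp (comp τ k v l)) fun l hl => by rw [hcomp l hl]]
    linarith
  have hkU : k ∈ U := by simp [U]
  set L := τ k - X k with hL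
  set D := v - X k with hDdef
  set xk := x (σ k) with hxk
  set S := ∑ l ∈ U, x (σ l) with hS
  have hxkpos : 0 < xk := hx _
  have hexp : exp (X k) = xk := exp_log (hx _)
  have hS1 : xk ≤ S := Finset.single_le_sum (fun l _ => (hx (σ l)).le) hkU
  have hcard : (U.card : ℝ) ≤ P.d := by
    exact_mod_cast (Finset.card_le_univ U).trans_eq (Fintype.card_fin _)
  have hS2 : S ≤ P.d * xk := by
    refine le_trans (Finset.sum_le_card_nsmul U _ xk fun l hl => hsort ?_) ?_
    · exact not_lt.mp (Finset.mem_filter.mp hl).2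
    · rw [nsmul_eq_mul]; exact mul_le_mul_of_nonneg_right hcard hxkpos.le
  -- both sides against `x log x`
  have hup : ∑ l ∈ U, (x (σ l) * τ l - P.wt w l * exp (τ l))
      ≤ ∑ l ∈ U, x (σ l) * X l + L * S + P.d * xk - P.wt w k * exp (τ k) := by
    have h1 : ∑ l ∈ U, x (σ l) * τ l ≤ ∑ l ∈ U, (x (σ l) * (X l + L) + xk) := by
      refine Finset.sum_le_sum fun l hl => ?_
      have hkl : k ≤ l := not_lt.mp (Finset.mem_filter.mp hl).2
      have ht := hbest.1.1 k l hkl
      have hlog2 := log_le_sub_one_of_pos (div_pos hxkpos (hx (σ l)))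
      rw [log_div hxkpos.ne' (hx _).ne'] at hlog2
      have h3 : x (σ l) * (X k - X l) ≤ xk := by
        have h7 := mul_le_mul_of_nonneg_left hlog2 (hx (σ l)).le
        have h8 : x (σ l) * (xk / x (σ l) - 1) = xk - x (σ l) := by
          rw [mul_sub, mul_one, mul_div_cancel₀ _ (hx _).ne']
        simp only [hXdef, ← hxk]
        linarith [hx (σ l)]
      have h4 := mul_le_mul_of_nonneg_left ht (hx (σ l)).le
      rw [hL]
      nlinarith
    have h2 : P.wt w k * exp (τ k) ≤ ∑ l ∈ U, P.wt w l * exp (τ l) :=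
      Finset.single_le_sum (fun l _ => (mul_pos (P.wt_pos w l) (exp_pos _)).le) hkU
    rw [Finset.sum_add_distrib, Finset.sum_const, nsmul_eq_mul] at h1
    rw [Finset.sum_sub_distrib]
    simp only [mul_add, Finset.sum_add_distrib, ← Finset.sum_mul] at h1
    have h5 := mul_le_mul_of_nonneg_right hcard hxkpos.le
    rw [hS]; linarith
  have hlow : ∑ l ∈ U, x (σ l) * X l + D * S - P.d * xk
      ≤ ∑ l ∈ U, (x (σ l) * v - P.wt w' l * exp v) := by
    have h1 : ∑ l ∈ U, (x (σ l) * (X l + D) - xk)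
        ≤ ∑ l ∈ U, (x (σ l) * v - P.wt w' l * exp v) := by
      refine Finset.sum_le_sum fun l hl => ?_
      have hkl : k ≤ l := not_lt.mp (Finset.mem_filter.mp hl).2
      have h2 := hwv l hkl
      rw [hexp] at h2
      have h3 := mul_le_mul_of_nonneg_left (hX k l hkl) (hx (σ l)).le
      rw [hDdef]
      nlinarith
    rw [Finset.sum_sub_distrib, Finset.sum_const, nsmul_eq_mul] at h1
    simp only [mul_add, Finset.sum_add_distrib, ← Finset.sum_mul] at h1
    have h5 := mul_le_mul_of_nonneg_right hcard hxkpos.le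
    rw [hS]; linarith
  have main : P.wt w k * exp (τ k) ≤ (L - D) * S + 2 * P.d * xk := by nlinarith
  have hwpos : 0 ≤ P.wt w k * exp (τ k) := (mul_pos (P.wt_pos w k) (exp_pos _)).le
  have I1 : D - 2 * P.d ≤ L := by
    by_contra hc
    push Not at hc
    have : 0 < (D - L) := by linarith [show (0 : ℝ) ≤ P.d from Nat.cast_nonneg _]
    have := mul_le_mul_of_nonneg_left hS1 this.le
    nlinarith
  have I2 : P.wt w k * exp L ≤ P.d * (|L| + |D| + 2) := by
    have h1 : (L - D) * S ≤ (|L| + |D|) * (P.d * xk) :=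
      calc (L - D) * S ≤ |L - D| * S :=
            mul_le_mul_of_nonneg_right (le_abs_self _) (le_trans hxkpos.le hS1)
        _ ≤ (|L| + |D|) * (P.d * xk) :=
            mul_le_mul (abs_sub _ _) hS2 (le_trans hxkpos.le hS1)
              (add_nonneg (abs_nonneg _) (abs_nonneg _))
    have h2 : P.wt w k * exp (τ k) = P.wt w k * exp L * xk := by
      rw [← hexp, mul_assoc, ← exp_add, hL]; congr 2; ring
    have h3 : P.wt w k * exp L * xk ≤ P.d * (|L| + |D| + 2) * xk := by linarith
    exact le_of_mul_le_mul_right h3 hxkpos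
  have hRb := hR.real
  have hKp : (0 : ℝ) ≤ (P.K : ℝ) ^ (2 ^ (P.d + 1)) := by positivity
  have hd0 : (0 : ℝ) ≤ P.d := Nat.cast_nonneg _
  have hR2 : 20 * ((P.d : ℝ) + 1) ≤ P.R := by nlinarith
  have hT := R_le_T w (k : ℕ)
  have hT' := T_le_top w k.isLt
  rcases hdom.2 k with ⟨hs, -⟩ | ⟨hs, hfree⟩
  · -- snapped
    rw [lo_succ_of_snap hs, abs_le]
    refine ⟨by linarith [abs_le.mp hD], ?_⟩
    by_contra hc
    push Not at hc
    have hwk : P.wt w k * exp L = exp (L - P.T w k) := by
      simp [wt, hs, ← exp_add]; ring_nf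
    rw [hwk, abs_of_nonneg (by linarith : 0 ≤ L)] at I2
    have hu := log_le_R (u := L - P.T w k) (by linarith) hR (by nlinarith)
    linarith
  · -- free
    have hlo : P.lo w k ≤ P.lo w ((k : ℕ) + 1) := lo_mono w (Nat.le_succ _)
    have hlo' := R_le_lo w ((k : ℕ) + 1)
    simp only [wt, hs, if_neg (Bool.false_ne_true), one_mul] at I2
    rw [abs_le]
    have hup' : L ≤ P.R := by
      by_contra hc
      push Not at hc
      rw [abs_of_nonneg (by linarith [show (0 : ℝ) ≤ P.R from Nat.cast_nonneg _])] at I2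
      have hu := log_le_R (u := L) (by linarith [show (0 : ℝ) ≤ P.R from Nat.cast_nonneg _]) hR
        (by nlinarith [abs_le.mp hD])
      linarith
    refine ⟨?_, by linarith [show (0 : ℝ) ≤ P.R from Nat.cast_nonneg _]⟩
    by_contra hc
    push Not at hc
    rcases hcase with hv | ⟨r, hr, hr0, hz, hlt⟩
    · have : D = 0 := by rw [hDdef, hv, sub_self]
      linarith
    · have h := hfree r hr hr0
      rw [rv_eq_pre hr, show pre r τ k + r k * τ k = (r k : ℝ) * (τ k - v) by linarith,
        abs_mul, mul_comm (P.T w k)] at h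
      have h' := le_of_mul_le_mul_left h (abs_pos.mpr (by exact_mod_cast hr0))
      have := abs_le.mp hlt.le
      rcases le_total (τ k) v with hle | hle
      · rw [abs_of_nonpos (by linarith)] at h'
        linarith
      · rw [abs_of_nonneg (by linarith)] at h'
        linarith

/-- every coordinate of a sorted maximiser follows the logarithm -/
theorem best_close (hR : P.Big) {x : Fin P.d → ℝ} (hx : ∀ i, 0 < x i) {p : P.Tag}
    {τ : Fin P.d → ℝ} (hbest : P.IsBest x p τ) (hsort : Antitone (x ∘ p.1)) {j : ℕ}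
    (hj : j ≤ P.d) : ∀ l : Fin P.d, (l : ℕ) < j → |τ l - log (x (p.1 l))| ≤ P.lo p.2 j := by
  induction j with
  | zero => intro l hl; omega
  | succ j ih =>
    intro l hl
    by_cases h : (l : ℕ) < j
    · exact (ih (by omega) l h).trans (lo_mono _ (Nat.le_succ j))
    · obtain rfl : (l : ℕ) = j := by omega
      exact best_step hR hx hbest hsort l fun m hm => ih (by omega) m hm

end Par

end Vale.Agent.P072
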