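import Vale.Agent.P072.Defs

/-!
Weak reversibility makes the field point against any direction that orders the monomials with a
large margin.
-/

namespace Vale.Agent.P072

open Finset Real

variable {d : ℕ} {R : Finset ((Fin d → ℕ) × (Fin d → ℕ))}

/-- on a path some step descends in proportion to the whole descent, from above the final value -/
theorem exists_descent {a b : Fin d → ℕ}
    (h : Relation.ReflTransGen (fun a b => (a, b) ∈ R) a b) :
    ∃ m : ℕ, ∀ g : (Fin d → ℕ) → ℝ, g b < g a →
      ∃ e ∈ R, g b < g e.1 ∧ g a - g b ≤ m * (g e.1 - g e.2) := by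
  induction h using Relation.ReflTransGen.head_induction_on with
  | refl => exact ⟨0, fun g hg => absurd hg (lt_irrefl _)⟩
  | @head a' c' hac _ ih =>
    obtain ⟨m, hm⟩ := ih
    refine ⟨m + 1, fun g hg => ?_⟩
    push_cast
    rcases le_or_gt (g c') (g b) with hc | hc
    · exact ⟨_, hac, hg, by nlinarith [show (0 : ℝ) ≤ m from Nat.cast_nonneg _]⟩
    · obtain ⟨e, he, hb, hle⟩ := hm g hc
      rcases le_total (g e.1 - g e.2) (g a' - g c') with hs | hs
      · refine ⟨_, hac, hg, ?_⟩
        have := mul_le_mul_of_nonneg_left hs (Nat.cast_nonneg (α := ℝ) m)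
        simp only
        linarith
      · exact ⟨e, he, hb, by linarith⟩

/-- pairing of a direction with a complex -/
def pair (n : Fin d → ℝ) (y : Fin d → ℕ) : ℝ := ∑ i, n i * (y i : ℝ)

theorem pair_massAction (n : Fin d → ℝ) (k : (Fin d → ℕ) × (Fin d → ℕ) → ℝ) (x : Fin d → ℝ) :
    ∑ i, n i * massAction R k x i
      = ∑ e ∈ R, (k e * ∏ i, x i ^ e.1 i) * (pair n e.2 - pair n e.1) := by
  simp only [massAction, Finset.sum_apply, Pi.smul_apply, smul_eq_mul, Finset.mul_sum, pair,
    ← Finset.sum_sub_distrib]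
  rw [Finset.sum_comm]
  refine Finset.sum_congr rfl fun e _ => ?_
  exact Finset.sum_congr rfl fun i _ => by ring

theorem monomial_eq_exp {x : Fin d → ℝ} (hx : ∀ i, 0 < x i) (y : Fin d → ℕ) :
    ∏ i, x i ^ y i = exp (pair (fun i => log (x i)) y) := by
  rw [pair, Real.exp_sum]
  refine Finset.prod_congr rfl fun i _ => ?_
  rw [mul_comm, Real.exp_nat_mul, exp_log (hx i)]

/-- with a large margin the field descends strictly, or the direction kills every reaction -/
theorem drift {k : (Fin d → ℕ) × (Fin d → ℕ) → ℝ} (hW : WeaklyReversible R)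
    (hk : ∀ e ∈ R, 0 < k e) :
    ∃ R₀ : ℝ, ∀ ρ : ℝ, R₀ < ρ → ∀ x n : Fin d → ℝ, (∀ i, 0 < x i) →
      (∀ e ∈ R, ∀ e' ∈ R, pair n e.1 < pair n e'.1 →
        ρ ≤ pair (fun i => log (x i)) e'.1 - pair (fun i => log (x i)) e.1) →
      ∑ i, n i * massAction R k x i < 0 ∨ ∀ e ∈ R, pair n e.2 = pair n e.1 := by
  classical
  choose! m hm using fun e he => exists_descent (hW e he)
  set C : ℝ := (∑ e ∈ R, k e) * (∑ e ∈ R, (k e)⁻¹) * (∑ e ∈ R, (m e : ℝ))
  have hC : 0 ≤ C := mul_nonneg (mul_nonneg (sum_nonneg fun e he => (hk e he).le)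
    (sum_nonneg fun e he => (inv_pos.mpr (hk e he)).le)) (sum_nonneg fun e _ => Nat.cast_nonneg _)
  refine ⟨R.card * C, fun ρ hρ x n hx hgood => ?_⟩
  have hρ0 : 0 < ρ := lt_of_le_of_lt (by positivity) hρ
  set X : (Fin d → ℕ) → ℝ := fun y => ∏ i, x i ^ y i
  have hX : ∀ y, 0 < X y := fun y => prod_pos fun i _ => pow_pos (hx i) _
  set τ : (Fin d → ℕ) × (Fin d → ℕ) → ℝ := fun e => k e * X e.1 * (pair n e.2 - pair n e.1)
  set N := ∑ e ∈ R, max (-τ e) 0
  have hN : 0 ≤ N := sum_nonneg fun e _ => le_max_right _ _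
  have hpos : ∀ e ∈ R, max (τ e) 0 ≤ C / ρ * N := fun e he => by
    rcases le_or_gt (pair n e.2) (pair n e.1) with hle | hlt
    · rw [max_eq_right (mul_nonpos_of_nonneg_of_nonpos (mul_pos (hk e he) (hX _)).le
        (sub_nonpos.mpr hle))]
      positivity
    obtain ⟨e', he', hb, hd⟩ := hm e he (pair n) hlt
    have hD : 0 ≤ pair n e'.1 - pair n e'.2 := by
      by_contra hc
      push Not at hc
      nlinarith [show (0 : ℝ) ≤ m e from Nat.cast_nonneg _]
    have hXle : X e.1 ≤ X e'.1 / ρ := by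
      have h1 := hgood e he e' he' hb
      have h2 : ρ ≤ exp (pair (fun i => log (x i)) e'.1 - pair (fun i => log (x i)) e.1) :=
        le_trans (by linarith [add_one_le_exp ρ]) (exp_le_exp.mpr h1)
      rw [exp_sub, ← monomial_eq_exp hx, ← monomial_eq_exp hx] at h2
      rw [le_div_iff₀ (hX _)] at h2
      rw [le_div_iff₀ hρ0]
      linarith
    have hA : k e ≤ ∑ a ∈ R, k a := single_le_sum (fun a ha => (hk a ha).le) he
    have hB : (k e')⁻¹ ≤ ∑ a ∈ R, (k a)⁻¹ :=
      single_le_sum (fun a ha => (inv_pos.mpr (hk a ha)).le) he'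
    have hM : (m e : ℝ) ≤ ∑ a ∈ R, (m a : ℝ) :=
      single_le_sum (fun a _ => Nat.cast_nonneg (α := ℝ) (m a)) he
    have hneg : k e' * X e'.1 * (pair n e'.1 - pair n e'.2) ≤ N := by
      refine le_trans ?_ (single_le_sum (fun a _ => le_max_right (-τ a) 0) he')
      refine le_trans (le_of_eq ?_) (le_max_left _ _)
      simp only [τ]; ring
    refine max_le ?_ (by positivity)
    calc τ e ≤ k e * (X e'.1 / ρ) * ((m e : ℝ) * (pair n e'.1 - pair n e'.2)) := by
          refine mul_le_mul ?_ hd (sub_nonneg.mpr hlt.le)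
            (mul_nonneg (hk e he).le (div_nonneg (hX _).le hρ0.le))
          exact mul_le_mul_of_nonneg_left hXle (hk e he).le
      _ = (k e * (k e')⁻¹ * m e) / ρ * (k e' * X e'.1 * (pair n e'.1 - pair n e'.2)) := by
          have := (hk e' he').ne'
          field_simp
      _ ≤ C / ρ * N := by
          refine mul_le_mul ?_ hneg (mul_nonneg (mul_pos (hk e' he') (hX _)).le hD)
            (by positivity)
          gcongr
          exact mul_le_mul (mul_le_mul hA hB (inv_pos.mpr (hk e' he')).le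
            (le_trans (hk e he).le hA)) hM (Nat.cast_nonneg _)
            (mul_nonneg (le_trans (hk e he).le hA) (le_trans (inv_pos.mpr (hk e' he')).le hB))
  have hsum : ∑ i, n i * massAction R k x i = ∑ e ∈ R, max (τ e) 0 - N := by
    rw [pair_massAction, ← sum_sub_distrib]
    refine sum_congr rfl fun e _ => ?_
    rcases le_total (τ e) 0 with h | h
    · rw [max_eq_right h, max_eq_left (neg_nonneg.mpr h)]; simp [τ, X]
    · rw [max_eq_left h, max_eq_right (neg_nonpos.mpr h)]; simp [τ, X]
  rcases hN.eq_or_lt with h0 | h0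
  · right
    intro e he
    have h1 := hpos e he
    rw [← h0, mul_zero] at h1
    have h2 : max (-τ e) 0 ≤ N := single_le_sum (fun a _ => le_max_right (-τ a) 0) he
    rw [← h0] at h2
    have : τ e = 0 := le_antisymm (le_trans (le_max_left _ _) h1)
      (by linarith [le_max_left (-τ e) 0])
    exact sub_eq_zero.mp ((mul_eq_zero.mp this).resolve_left (mul_pos (hk e he) (hX _)).ne')
  · left
    rw [hsum]
    have h1 := (sum_le_sum hpos).trans (le_of_eq (sum_const _))
    rw [nsmul_eq_mul] at h1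
    have h2 : (R.card : ℝ) * (C / ρ * N) < N := by
      rw [← mul_assoc, ← mul_div_assoc]
      exact mul_lt_of_lt_one_left h0 ((div_lt_one hρ0).mpr hρ)
    linarith

end Vale.Agent.P072
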