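import Vale.Agent.P072.Geometry
import Vale.Agent.P072.Network
import Vale.Agent.P072.Flow

/-!
Permanence of weakly reversible mass-action systems on every positive stoichiometric class.
-/

namespace Vale.Agent.P072

open Finset Real

theorem htRec_indep (d M N N' j : ℕ) :
    (⟨d, M, N⟩ : Par).htRec j = (⟨d, M, N'⟩ : Par).htRec j := by
  induction j with
  | zero => rfl
  | succ j ih => simp only [Par.htRec, ih]

/-- parameters above any given threshold -/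
theorem exists_big (d M : ℕ) (r : ℝ) :
    ∃ N : ℕ, (⟨d, M, N⟩ : Par).Big ∧ r < (N : ℝ) := by
  refine ⟨20 * (d + 1) * ((⟨d, M, 0⟩ : Par).K ^ (2 ^ (d + 1)) + 1) + (⌈r⌉₊ + 1), ?_, ?_⟩
  · simp only [Par.Big, Par.K]
    rw [htRec_indep d M _ 0 d]
    exact Nat.le_add_right _ _
  · push_cast
    have := Nat.le_ceil r
    have : (0 : ℝ) ≤ 20 * ((d : ℝ) + 1) * (((⟨d, M, 0⟩ : Par).K : ℝ) ^ (2 ^ (d + 1)) + 1) := by
      positivity
    linarith

variable {d : ℕ} {R : Finset ((Fin d → ℕ) × (Fin d → ℕ))}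

theorem massAction_mem (k : (Fin d → ℕ) × (Fin d → ℕ) → ℝ) (x : Fin d → ℝ) :
    massAction R k x ∈ stoichSubspace R :=
  Submodule.sum_mem _ fun e he => Submodule.smul_mem _ _ (Submodule.subset_span ⟨e, he, rfl⟩)

theorem massAction_contDiff (k : (Fin d → ℕ) × (Fin d → ℕ) → ℝ) :
    ContDiff ℝ 1 (massAction R k) := by
  unfold massAction
  fun_prop

/-- a direction killing every reaction is constant on classes -/
theorem pair_eq_of_mem {n v : Fin d → ℝ} (h : ∀ e ∈ R, pair n e.2 = pair n e.1)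
    (hv : v ∈ stoichSubspace R) : ∑ i, n i * v i = 0 := by
  induction hv using Submodule.span_induction with
  | mem v hv =>
    obtain ⟨e, he, rfl⟩ := hv
    have := h e he
    simp only [pair] at this
    simp only [mul_sub, Finset.sum_sub_distrib]
    linarith
  | zero => simp
  | add a b _ _ ha hb => simp [mul_add, Finset.sum_add_distrib, ha, hb]
  | smul r a _ ha => simp [mul_left_comm _ r, ← Finset.mul_sum, ha]

theorem pair_sub (n : Fin d → ℝ) (a b : Fin d → ℕ) :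
    ∑ i, (((a i : ℤ) - (b i : ℤ) : ℤ) : ℝ) * n i = pair n a - pair n b := by
  simp only [pair, ← Finset.sum_sub_distrib]
  exact Finset.sum_congr rfl fun i _ => by push_cast; ring

/-- the functional of a direction -/
noncomputable def func (n : Fin d → ℝ) : (Fin d → ℝ) →L[ℝ] ℝ :=
  ∑ i, n i • ContinuousLinearMap.proj i

theorem func_apply (n v : Fin d → ℝ) : func n v = ∑ i, n i * v i := by
  simp [func]

theorem supports_best {P : Par} {x : Fin P.d → ℝ} (hx : ∀ i, 0 < x i) {p : P.Tag}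
    {τ : Fin P.d → ℝ} (h : P.IsBest x p τ) : Supports P.lyap (func (P.dir p τ)) x := by
  intro y hy
  have e := Par.val_sub p τ x y
  rw [Par.lyap_eq hx h, func_apply]
  have := Par.le_lyap (P := P) hy (p := p) h.1
  simp only [Pi.sub_apply]
  linarith

/-- the class meets every box in a compact set -/
theorem isCompact_slice (c : Fin d → ℝ) (δ m : ℝ) :
    IsCompact {x : Fin d → ℝ | (∀ i, δ ≤ x i ∧ x i ≤ m) ∧ x - c ∈ stoichSubspace R} := by
  have e : {x : Fin d → ℝ | (∀ i, δ ≤ x i ∧ x i ≤ m) ∧ x - c ∈ stoichSubspace R}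
      = (Set.Icc (fun _ => δ) fun _ => m) ∩ (fun x => x - c) ⁻¹' (stoichSubspace R : Set _) := by
    ext x
    simp [Pi.le_def, forall_and]
  rw [e]
  exact isCompact_Icc.inter_right ((stoichSubspace R).closed_of_finiteDimensional.preimage
    (continuous_id.sub continuous_const))

theorem permanent (k : (Fin d → ℕ) × (Fin d → ℕ) → ℝ) (hW : WeaklyReversible R)
    (hk : ∀ e ∈ R, 0 < k e) (c : Fin d → ℝ) (hc : ∀ i, 0 < c i) :
    ∃ K : Set (Fin d → ℝ), IsCompact K ∧ K ⊆ stoichClass R c ∧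
      ∀ x₀ ∈ stoichClass R c, ∃ x : ℝ → Fin d → ℝ, x 0 = x₀ ∧
        (∀ t, 0 ≤ t → HasDerivWithinAt x (massAction R k (x t)) (Set.Ici 0) t ∧
          x t ∈ stoichClass R c) ∧
        (∃ T, ∀ t, T ≤ t → x t ∈ K) ∧
        ∀ (T : ℝ) (y : ℝ → Fin d → ℝ), y 0 = x₀ →
          (∀ t, 0 ≤ t → t < T → HasDerivWithinAt y (massAction R k (y t)) (Set.Ico 0 T) t) →
          ∀ t, 0 ≤ t → t < T → y t = x t := by
  classical
  set M := 1 + ∑ e ∈ R, ∑ i, (e.1 i + e.2 i) with hMdef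
  have hM : ∀ e ∈ R, ∀ i, e.1 i < M := fun e he i => by
    have h1 : e.1 i + e.2 i ≤ ∑ j, (e.1 j + e.2 j) :=
      single_le_sum (f := fun j => e.1 j + e.2 j) (fun _ _ => Nat.zero_le _) (mem_univ i)
    have h2 : ∑ j, (e.1 j + e.2 j) ≤ ∑ a ∈ R, ∑ j, (a.1 j + a.2 j) :=
      single_le_sum (f := fun a : (Fin d → ℕ) × (Fin d → ℕ) => ∑ j, (a.1 j + a.2 j))
        (fun _ _ => Nat.zero_le _) he
    omega
  obtain ⟨R₀, hR₀⟩ := drift hW hk
  set L : (Fin d → ℝ) → ℝ := fun a => ∑ i, |log (a i)|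
  have hL : ∀ a i, |log (a i)| ≤ L a := fun a i =>
    single_le_sum (f := fun j => |log (a j)|) (fun j _ => abs_nonneg _) (mem_univ i)
  -- strict descent where the function is positive
  have descent : ∀ N : ℕ, (⟨d, M, N⟩ : Par).Big → R₀ < N → L c < N →
      ∀ x : Fin d → ℝ, (∀ i, 0 < x i) → x - c ∈ stoichSubspace R →
        0 < (⟨d, M, N⟩ : Par).lyap x → ∀ (p : (⟨d, M, N⟩ : Par).Tag) (τ : Fin d → ℝ),
          (⟨d, M, N⟩ : Par).IsBest x p τ →
            ∑ i, (⟨d, M, N⟩ : Par).dir p τ i * massAction R k x i < 0 := by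
    intro N hbig hN hcN x hx hxc hpos p τ hb
    set n := (⟨d, M, N⟩ : Par).dir p τ with hn
    have hgood : ∀ e ∈ R, ∀ e' ∈ R, pair n e.1 < pair n e'.1 → (N : ℝ) ≤
        pair (fun i => log (x i)) e'.1 - pair (fun i => log (x i)) e.1 := by
      intro e he e' he' hlt
      have hr : ∀ i, |(e'.1 i : ℤ) - (e.1 i : ℤ)| ≤ (M : ℤ) := fun i =>
        abs_le.mpr ⟨by have := hM e he i; omega, by have := hM e' he' i; omega⟩
      have hd := Par.dir_good hbig hx hb (r := fun i => (e'.1 i : ℤ) - (e.1 i : ℤ)) hr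
        (lt_of_lt_of_eq (sub_pos.mpr hlt) (pair_sub n e'.1 e.1).symm)
      exact le_of_le_of_eq hd (pair_sub (fun i => log (x i)) e'.1 e.1)
    rcases hR₀ N hN x n hx hgood with h | h
    · exact h
    · exfalso
      have h0 := pair_eq_of_mem h hxc
      have e1 := Par.val_sub p τ c x
      rw [← hn] at e1
      simp only [Pi.sub_apply] at h0
      have e2 := Par.lyap_center hbig (Nat.le_add_right 1 _) hc
        (fun i => lt_of_le_of_lt (hL c i) hcN)
      have e3 := Par.le_lyap (P := ⟨d, M, N⟩) hc (p := p) hb.1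
      have e4 := Par.lyap_eq hx hb
      linarith
  obtain ⟨N₀, hbig₀, hN₀⟩ := exists_big d M (|R₀| + L c)
  have hLc : 0 ≤ L c := sum_nonneg fun i _ => abs_nonneg _
  obtain ⟨b₀, δ₀, m₀, hb₀, hδ₀, hbox₀⟩ := Par.exists_box hbig₀
  refine ⟨_, isCompact_slice c δ₀ m₀,
    fun x hx => ⟨fun i => lt_of_lt_of_le hδ₀ (hx.1 i).1, hx.2⟩, fun x₀ hx₀ => ?_⟩
  obtain ⟨N₁, hbig₁, hN₁⟩ := exists_big d M (|R₀| + L c + L x₀)
  have hLx : 0 ≤ L x₀ := sum_nonneg fun i _ => abs_nonneg _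
  obtain ⟨b₁, δ₁, m₁, hb₁, hδ₁, hbox₁⟩ := Par.exists_box hbig₁
  have hf := massAction_contDiff (R := R) k
  have hcont₀ : ContinuousOn (⟨d, M, N₀⟩ : Par).lyap (orthant d) := Par.lyap_continuousOn
  have hcont₁ : ContinuousOn (⟨d, M, N₁⟩ : Par).lyap (orthant d) := Par.lyap_continuousOn
  have hstart : (⟨d, M, N₁⟩ : Par).lyap x₀ ≤ 0 :=
    (Par.lyap_center hbig₁ (Nat.le_add_right 1 _) hx₀.1 fun i => by
      have := hL x₀ i
      show |log (x₀ i)| < (N₁ : ℝ)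
      linarith [abs_nonneg R₀]).le
  -- global solution inside a compact set
  have hΩc : IsCompact (Set.Icc (fun _ : Fin d => δ₁) fun _ => m₁) := isCompact_Icc
  obtain ⟨x, hx0, hx⟩ := exists_global (b := b₁) hf (massAction_mem k) hcont₁ hΩc
    (fun y hy i => lt_of_lt_of_le hδ₁ (hy.1 i))
    (fun y hy hb => ⟨fun i => (hbox₁ y hy hb i).1, fun i => (hbox₁ y hy hb i).2⟩)
    hx₀.1 hx₀.2 hstart hb₁ (fun y hy hyc hpos => by
      obtain ⟨p, τ, hb, -⟩ := Par.lyap_best (P := ⟨d, M, N₁⟩) hy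
      refine ⟨_, ?_, supports_best (P := ⟨d, M, N₁⟩) hy hb⟩
      rw [func_apply]
      exact descent N₁ hbig₁ (by linarith [le_abs_self R₀]) (by linarith [abs_nonneg R₀])
        y hy hyc hpos p τ hb)
  refine ⟨x, hx0, fun t ht => ⟨(hx t ht).1, (hx t ht).2.1, (hx t ht).2.2.1⟩, ?_, fun T y hy0 hy =>
    solution_unique hf (hy0.trans hx0.symm) (fun t ht _ => (hx t ht).1) hy⟩
  -- entry
  set Ω := {y : Fin d → ℝ | (∀ i, δ₁ ≤ y i ∧ y i ≤ m₁) ∧ y - c ∈ stoichSubspace R}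
  have hΩpos : Ω ⊆ orthant d := fun y hy i => lt_of_lt_of_le hδ₁ (hy.1 i).1
  set Z := Ω ∩ (⟨d, M, N₀⟩ : Par).lyap ⁻¹' Set.Ici b₀
  have hZ : IsCompact Z := (isCompact_slice c δ₁ m₁).of_isClosed_subset
    ((hcont₀.mono hΩpos).preimage_isClosed_of_isClosed (isCompact_slice c δ₁ m₁).isClosed
      isClosed_Ici) Set.inter_subset_left
  obtain ⟨δ, hδ, hmargin⟩ := Par.exists_margin (P := ⟨d, M, N₀⟩) hZ hδ₁ (fun y hy => hy.1.1)
    hf.continuous (fun y hy p τ hb => descent N₀ hbig₀ (by linarith [le_abs_self R₀])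
      (by linarith [abs_nonneg R₀]) y (hΩpos hy.1) hy.1.2 (lt_of_lt_of_le hb₀ hy.2) p τ hb)
  have hxΩ : ∀ t, 0 ≤ t → x t ∈ Ω := fun t ht =>
    ⟨hbox₁ _ (hx t ht).2.1 ((hx t ht).2.2.2.trans hb₁.le), (hx t ht).2.2.1⟩
  obtain ⟨T, hT0, hT⟩ := eventually_le (a := b₀) hδ hcont₀ (isCompact_slice c δ₁ m₁) hΩpos
    (fun t ht => ⟨(hx t ht).1, hxΩ t ht⟩) (fun t ht hgt => by
      obtain ⟨p, τ, hb, -⟩ := Par.lyap_best (P := ⟨d, M, N₀⟩) (hΩpos (hxΩ t ht))
      exact ⟨_, by rw [func_apply]; exact hmargin _ ⟨hxΩ t ht, hgt.le⟩ p τ hb,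
        supports_best (P := ⟨d, M, N₀⟩) (hΩpos (hxΩ t ht)) hb⟩)
  exact ⟨T, fun t ht => ⟨hbox₀ _ (hx t (hT0.trans ht)).2.1 (hT t ht), (hx t (hT0.trans ht)).2.2.1⟩⟩

end Vale.Agent.P072
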