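import Mathlib

/-!
Integer forms of bounded height on ordered coordinates, and thresholds chosen by bisection of a
logarithmic scale according to a history of snapped and free coordinates.
-/

namespace Vale.Agent.P072

open Finset

/-- Parameters: the height `M` of the forms that matter and the base threshold `R`. -/
structure Par where
  /-- number of coordinates -/
  d : ℕ
  /-- height of the forms of the network -/
  M : ℕ
  /-- base threshold -/
  R : ℕ

namespace Par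

variable (P : Par)

/-- height of forms after `j` eliminations -/
def htRec : ℕ → ℕ
  | 0 => P.M + 1
  | j + 1 => 2 * htRec j ^ 2

/-- height of the forms on the first `k` coordinates -/
def ht (k : ℕ) : ℕ := P.htRec (P.d - k)

/-- ratio of consecutive scales -/
def K : ℕ := 100 * (P.d + 1) * P.htRec P.d ^ (P.d + 2)

/-- exponents of the current interval of scales -/
def ab (w : Fin P.d → Bool) : ℕ → ℕ × ℕ
  | 0 => (0, 2 ^ (P.d + 1))
  | k + 1 =>
    if h : k < P.d then
      if w ⟨k, h⟩ then ((ab w k).1 + 2 ^ (P.d - k), (ab w k).2)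
      else ((ab w k).1, (ab w k).1 + 2 ^ (P.d - k))
    else ab w k

/-- threshold of stage `k` -/
def T (w : Fin P.d → Bool) (k : ℕ) : ℝ :=
  (P.R : ℝ) * (P.K : ℝ) ^ ((P.ab w k).1 + 2 ^ (P.d - k))

/-- bound on the error after `k` stages -/
def lo (w : Fin P.d → Bool) (k : ℕ) : ℝ := 4 * (P.R : ℝ) * (P.K : ℝ) ^ (P.ab w k).1

/-- lower bound on the nonzero forms after `k` stages -/
noncomputable def gap (w : Fin P.d → Bool) (k : ℕ) : ℝ :=
  (P.R : ℝ) * (P.K : ℝ) ^ (P.ab w k).2 / (P.htRec P.d : ℝ) ^ k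

theorem one_le_htRec (j : ℕ) : 1 ≤ P.htRec j := by
  induction j with
  | zero => simp [htRec]
  | succ j ih => simp [htRec]; nlinarith

theorem htRec_mono {i j : ℕ} (h : i ≤ j) : P.htRec i ≤ P.htRec j :=
  monotone_nat_of_le_succ (f := P.htRec) (fun n => by
    have := P.one_le_htRec n
    simp [htRec]; nlinarith) h

theorem ht_le (k : ℕ) : P.ht k ≤ P.htRec P.d := P.htRec_mono (Nat.sub_le _ _)

theorem one_le_ht (k : ℕ) : 1 ≤ P.ht k := P.one_le_htRec _

theorem ht_succ {k : ℕ} (hk : k < P.d) : P.ht k = 2 * P.ht (k + 1) ^ 2 := by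
  rw [ht, ht, show P.d - k = (P.d - (k + 1)) + 1 by omega, htRec]

theorem M_lt_ht (k : ℕ) : P.M < P.ht k := by
  have := P.htRec_mono (Nat.zero_le (P.d - k))
  simp [htRec] at this
  simp [ht]; omega

theorem one_le_K : 1 ≤ P.K := by
  have := Nat.one_le_pow (P.d + 2) _ (P.one_le_htRec P.d)
  unfold K; nlinarith

theorem K_big {k : ℕ} (hk : k ≤ P.d + 2) :
    100 * (P.d + 1) * (P.htRec P.d : ℝ) ^ k ≤ (P.K : ℝ) := by
  have h1 : (1 : ℝ) ≤ P.htRec P.d := by exact_mod_cast P.one_le_htRec P.d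
  simp only [K, Nat.cast_mul, Nat.cast_pow, Nat.cast_add, Nat.cast_one, Nat.cast_ofNat]
  exact mul_le_mul_of_nonneg_left (pow_le_pow_right₀ h1 hk) (by positivity)

theorem ab_width (w : Fin P.d → Bool) {k : ℕ} (hk : k ≤ P.d) :
    (P.ab w k).2 = (P.ab w k).1 + 2 ^ (P.d + 1 - k) := by
  induction k with
  | zero => simp [ab]
  | succ k ih =>
    have h := ih (by omega)
    have e : P.d + 1 - k = (P.d - k) + 1 := by omega
    rw [e, pow_succ] at h
    rw [show P.d + 1 - (k + 1) = P.d - k by omega]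
    simp only [ab, dif_pos (show k < P.d by omega)]
    split_ifs <;> simp <;> omega

theorem ab_fst_mono (w : Fin P.d → Bool) {i j : ℕ} (h : i ≤ j) :
    (P.ab w i).1 ≤ (P.ab w j).1 :=
  monotone_nat_of_le_succ (f := fun k => (P.ab w k).1) (fun k => by
    simp only [ab]; split_ifs <;> simp) h

theorem ab_snd_le (w : Fin P.d → Bool) {k : ℕ} (hk : k ≤ P.d) :
    (P.ab w k).2 ≤ 2 ^ (P.d + 1) := by
  induction k with
  | zero => simp [ab]
  | succ k ih =>
    have h := P.ab_width w (show k ≤ P.d by omega)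
    have e : P.d + 1 - k = (P.d - k) + 1 := by omega
    rw [e, pow_succ] at h
    have := ih (by omega)
    simp only [ab, dif_pos (show k < P.d by omega)]
    split_ifs <;> simp <;> omega

theorem ab_congr {w w' : Fin P.d → Bool} {k : ℕ} (h : ∀ l : Fin P.d, (l : ℕ) < k → w l = w' l) :
    P.ab w k = P.ab w' k := by
  induction k with
  | zero => rfl
  | succ k ih =>
    simp only [ab, ih fun l hl => h l (by omega)]
    by_cases hk : k < P.d
    · simp only [dif_pos hk, h ⟨k, hk⟩ (Nat.lt_succ_self k)]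
    · simp only [dif_neg hk]

theorem T_congr {w w' : Fin P.d → Bool} {k : ℕ} (h : ∀ l : Fin P.d, (l : ℕ) < k → w l = w' l) :
    P.T w k = P.T w' k := by
  simp [T, P.ab_congr h]

theorem lo_congr {w w' : Fin P.d → Bool} {k : ℕ} (h : ∀ l : Fin P.d, (l : ℕ) < k → w l = w' l) :
    P.lo w k = P.lo w' k := by
  simp [lo, P.ab_congr h]

variable {P}

theorem pow_K_mono {i j : ℕ} (h : i ≤ j) : (P.K : ℝ) ^ i ≤ (P.K : ℝ) ^ j :=
  pow_le_pow_right₀ (by exact_mod_cast P.one_le_K) h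

theorem R_le_T (w : Fin P.d → Bool) (k : ℕ) : (P.R : ℝ) ≤ P.T w k :=
  le_mul_of_one_le_right (Nat.cast_nonneg _) (one_le_pow₀ (by exact_mod_cast P.one_le_K))

theorem T_nonneg (w : Fin P.d → Bool) (k : ℕ) : 0 ≤ P.T w k :=
  le_trans (Nat.cast_nonneg _) (R_le_T w k)

theorem R_le_lo (w : Fin P.d → Bool) (k : ℕ) : 4 * (P.R : ℝ) ≤ P.lo w k :=
  le_mul_of_one_le_right (by positivity) (one_le_pow₀ (by exact_mod_cast P.one_le_K))

theorem T_le_top (w : Fin P.d → Bool) {k : ℕ} (hk : k < P.d) :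
    P.T w k ≤ (P.R : ℝ) * (P.K : ℝ) ^ (2 ^ (P.d + 1)) := by
  refine mul_le_mul_of_nonneg_left (pow_K_mono ?_) (Nat.cast_nonneg _)
  have h := P.ab_width w hk.le
  have := P.ab_snd_le w hk.le
  have : 2 ^ (P.d - k) ≤ 2 ^ (P.d + 1 - k) := Nat.pow_le_pow_right (by norm_num) (by omega)
  omega

theorem lo_mono (w : Fin P.d → Bool) {i j : ℕ} (h : i ≤ j) : P.lo w i ≤ P.lo w j :=
  mul_le_mul_of_nonneg_left (pow_K_mono (P.ab_fst_mono w h)) (by positivity)

theorem lo_succ_of_snap {w : Fin P.d → Bool} {k : Fin P.d} (h : w k = true) :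
    P.lo w ((k : ℕ) + 1) = 4 * P.T w k := by
  simp [lo, T, ab, h]
  ring

theorem T_le_of_snap {w : Fin P.d → Bool} {k i : Fin P.d} (h : w k = true) (hi : k < i) :
    P.T w k ≤ P.T w i := by
  refine mul_le_mul_of_nonneg_left (pow_K_mono ?_) (Nat.cast_nonneg _)
  have h1 := P.ab_fst_mono w (show (k : ℕ) + 1 ≤ i from hi)
  simp only [ab, dif_pos k.isLt, Fin.eta, h, if_true] at h1
  exact h1.trans (Nat.le_add_right _ _)

theorem four_lo_lt_T (hR : 0 < P.R) (w : Fin P.d → Bool) (k : ℕ) :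
    4 * P.lo w k < P.T w k := by
  have hK : (100 : ℝ) ≤ P.K := by
    have := P.K_big (k := 0) (by omega)
    simp at this
    nlinarith [show (0 : ℝ) ≤ P.d from Nat.cast_nonneg _]
  have h1 : (P.K : ℝ) ^ ((P.ab w k).1 + 1) ≤ (P.K : ℝ) ^ ((P.ab w k).1 + 2 ^ (P.d - k)) :=
    pow_K_mono (Nat.add_le_add_left Nat.one_le_two_pow _)
  have h0 : (0 : ℝ) < (P.R : ℝ) * (P.K : ℝ) ^ (P.ab w k).1 :=
    mul_pos (by exact_mod_cast hR) (pow_pos (by linarith) _)
  calc 4 * P.lo w k = 16 * ((P.R : ℝ) * (P.K : ℝ) ^ (P.ab w k).1) := by rw [lo]; ring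
    _ < (P.K : ℝ) * ((P.R : ℝ) * (P.K : ℝ) ^ (P.ab w k).1) := by
      apply mul_lt_mul_of_pos_right _ h0; linarith
    _ = (P.R : ℝ) * (P.K : ℝ) ^ ((P.ab w k).1 + 1) := by rw [pow_succ]; ring
    _ ≤ P.T w k := mul_le_mul_of_nonneg_left h1 (Nat.cast_nonneg _)

theorem T_lt_gap (hR : 0 < P.R) (w : Fin P.d → Bool) {k : ℕ} (hk : k < P.d) :
    4 * P.T w k * P.htRec P.d < P.gap w k := by
  have hm : (1 : ℝ) ≤ P.htRec P.d := by exact_mod_cast P.one_le_htRec P.d
  have hK : (1 : ℝ) ≤ P.K := by exact_mod_cast P.one_le_K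
  have hb : (P.ab w k).1 + 2 ^ (P.d - k) + 1 ≤ (P.ab w k).2 := by
    have h := P.ab_width w hk.le
    rw [show P.d + 1 - k = (P.d - k) + 1 by omega, pow_succ] at h
    have := Nat.one_le_two_pow (n := P.d - k)
    omega
  have hT : 0 < P.T w k := mul_pos (by exact_mod_cast hR) (pow_pos (by linarith) _)
  rw [gap, lt_div_iff₀ (by positivity)]
  have hkk : 4 * (P.htRec P.d : ℝ) ^ (k + 1) < P.K := by
    have := P.K_big (show k + 1 ≤ P.d + 2 by omega)
    have : (0 : ℝ) < (P.htRec P.d : ℝ) ^ (k + 1) := by positivity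
    nlinarith [show (0 : ℝ) ≤ P.d from Nat.cast_nonneg _]
  calc 4 * P.T w k * P.htRec P.d * (P.htRec P.d : ℝ) ^ k
      = P.T w k * (4 * (P.htRec P.d : ℝ) ^ (k + 1)) := by ring
    _ < P.T w k * P.K := mul_lt_mul_of_pos_left hkk hT
    _ = (P.R : ℝ) * (P.K : ℝ) ^ ((P.ab w k).1 + 2 ^ (P.d - k) + 1) := by rw [T, pow_succ]; ring
    _ ≤ _ := mul_le_mul_of_nonneg_left (pow_K_mono hb) (Nat.cast_nonneg _)

/-! Forms. -/

variable (P) in
/-- forms on the first `k` coordinates -/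
noncomputable def forms (k : ℕ) : Finset (Fin P.d → ℤ) :=
  (Fintype.piFinset fun _ => Finset.Icc (-(P.ht k : ℤ)) (P.ht k)).filter
    fun r => ∀ l : Fin P.d, k ≤ (l : ℕ) → r l = 0

theorem mem_forms {k : ℕ} {r : Fin P.d → ℤ} :
    r ∈ P.forms k ↔ (∀ l, |r l| ≤ (P.ht k : ℤ)) ∧ ∀ l : Fin P.d, k ≤ (l : ℕ) → r l = 0 := by
  simp [forms, abs_le, Fintype.mem_piFinset]

/-- value of a form -/
noncomputable def rv (r : Fin P.d → ℤ) (τ : Fin P.d → ℝ) : ℝ := ∑ l, (r l : ℝ) * τ l

/-- value of a form without its last coordinate `k` -/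
noncomputable def pre (r : Fin P.d → ℤ) (τ : Fin P.d → ℝ) (k : Fin P.d) : ℝ :=
  ∑ l ∈ Finset.univ.filter (fun l => l < k), (r l : ℝ) * τ l

theorem rv_eq_pre {r : Fin P.d → ℤ} {τ : Fin P.d → ℝ} {k : Fin P.d}
    (hr : r ∈ P.forms ((k : ℕ) + 1)) : rv r τ = pre r τ k + r k * τ k := by
  rw [rv, pre, ← Finset.sum_filter_add_sum_filter_not Finset.univ (fun l => l < k)]
  congr 1
  refine Finset.sum_eq_single k (fun l hl hne => ?_) (by simp)
  simp only [Finset.mem_filter, Finset.mem_univ, true_and, not_lt] at hl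
  have : k < l := lt_of_le_of_ne hl (Ne.symm hne)
  simp [(mem_forms.mp hr).2 l (by omega)]

theorem pre_congr {r : Fin P.d → ℤ} {τ τ' : Fin P.d → ℝ} {k : Fin P.d}
    (h : ∀ l, l < k → τ l = τ' l) : pre r τ k = pre r τ' k :=
  Finset.sum_congr rfl fun l hl => by
    rw [h l (Finset.mem_filter.mp hl).2]

/-- eliminating the last coordinate of two forms -/
def elim (r s : Fin P.d → ℤ) (k : Fin P.d) : Fin P.d → ℤ := fun l => s k * r l - r k * s l

theorem elim_mem {r s : Fin P.d → ℤ} {k : Fin P.d} (hr : r ∈ P.forms ((k : ℕ) + 1))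
    (hs : s ∈ P.forms ((k : ℕ) + 1)) : elim r s k ∈ P.forms (k : ℕ) := by
  obtain ⟨r1, r2⟩ := mem_forms.mp hr
  obtain ⟨s1, s2⟩ := mem_forms.mp hs
  refine mem_forms.mpr ⟨fun l => ?_, fun l hl => ?_⟩
  · rw [P.ht_succ k.isLt]
    push_cast
    calc |s k * r l - r k * s l| ≤ |s k * r l| + |r k * s l| := abs_sub _ _
      _ = |s k| * |r l| + |r k| * |s l| := by rw [abs_mul, abs_mul]
      _ ≤ _ := by nlinarith [s1 k, r1 l, r1 k, s1 l, abs_nonneg (s k), abs_nonneg (r l),
          abs_nonneg (r k), abs_nonneg (s l)]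
  · rcases eq_or_lt_of_le hl with h | h
    · rw [show l = k from Fin.ext h.symm]; simp [elim]; ring
    · simp [elim, r2 l h, s2 l h]

theorem rv_elim (r s : Fin P.d → ℤ) (k : Fin P.d) (τ : Fin P.d → ℝ) :
    rv (elim r s k) τ = s k * rv r τ - r k * rv s τ := by
  simp only [rv, elim, Finset.mul_sum, ← Finset.sum_sub_distrib]
  exact Finset.sum_congr rfl fun l _ => by push_cast; ring

theorem abs_le_ht {k : ℕ} {r : Fin P.d → ℤ} (hr : r ∈ P.forms k) (l : Fin P.d) :
    |(r l : ℝ)| ≤ P.htRec P.d := by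
  have h := ((mem_forms.mp hr).1 l).trans (Int.ofNat_le.mpr (P.ht_le k))
  exact_mod_cast h

/-! The admissible vectors. -/

variable (P) in
/-- ordered vectors with history `w`: snapped coordinates lie on a form, free ones stay away -/
def Dom (w : Fin P.d → Bool) (τ : Fin P.d → ℝ) : Prop :=
  (∀ i j, i ≤ j → τ j ≤ τ i) ∧
    ∀ k : Fin P.d,
      (w k = true ∧ ∃ r ∈ P.forms ((k : ℕ) + 1), r k ≠ 0 ∧ rv r τ = 0) ∨
      (w k = false ∧ ∀ r ∈ P.forms ((k : ℕ) + 1), r k ≠ 0 → P.T w k * |(r k : ℝ)| ≤ |rv r τ|)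

theorem gap_dichotomy {w : Fin P.d → Bool} {τ : Fin P.d → ℝ} (h : P.Dom w τ) {k : ℕ}
    (hk : k ≤ P.d) : ∀ r ∈ P.forms k, rv r τ = 0 ∨ P.gap w k ≤ |rv r τ| := by
  have hm : (1 : ℝ) ≤ P.htRec P.d := by exact_mod_cast P.one_le_htRec P.d
  induction k with
  | zero =>
    intro r hr
    left
    exact Finset.sum_eq_zero fun l _ => by simp [(mem_forms.mp hr).2 l (Nat.zero_le _)]
  | succ k ih =>
    intro r hr
    let k' : Fin P.d := ⟨k, by omega⟩
    have hb : (P.ab w (k + 1)).2 ≤ (P.ab w k).2 := by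
      have h := P.ab_width w (show k ≤ P.d by omega)
      rw [show P.d + 1 - k = (P.d - k) + 1 by omega, pow_succ] at h
      simp only [ab, dif_pos (show k < P.d by omega)]
      split_ifs <;> simp <;> omega
    have hg : P.gap w (k + 1) * P.htRec P.d ≤ P.gap w k := by
      rw [gap, gap, pow_succ, div_mul_eq_div_div, div_mul_cancel₀ _ (by positivity)]
      gcongr
      exact_mod_cast P.one_le_K
    rcases h.2 k' with ⟨-, s, hs, hs0, hsv⟩ | ⟨hw, hfree⟩
    · have he := ih (by omega) _ (elim_mem (k := k') hr hs)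
      rw [rv_elim, hsv, mul_zero, sub_zero] at he
      rcases he with he | he
      · left
        exact (mul_eq_zero.mp he).resolve_left (by exact_mod_cast hs0)
      · right
        rw [abs_mul] at he
        have h1 := mul_le_mul_of_nonneg_right (abs_le_ht hs k') (abs_nonneg (rv r τ))
        nlinarith
    · by_cases hr0 : r k' = 0
      · have hr' : r ∈ P.forms k := by
          obtain ⟨r1, r2⟩ := mem_forms.mp hr
          refine mem_forms.mpr ⟨fun l => (r1 l).trans ?_, fun l hl => ?_⟩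
          · have := P.one_le_ht (k + 1)
            have e := P.ht_succ (show k < P.d by omega)
            exact_mod_cast (by rw [e]; nlinarith : P.ht (k + 1) ≤ P.ht k)
          · rcases eq_or_lt_of_le hl with e | e
            · rwa [show l = k' from Fin.ext e.symm]
            · exact r2 l e
        refine (ih (by omega) r hr').imp_right fun he => le_trans ?_ he
        have : 0 ≤ P.gap w (k + 1) := by unfold gap; positivity
        nlinarith
      · right
        refine le_trans ?_ (le_trans (le_mul_of_one_le_right (T_nonneg w k)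
          (by exact_mod_cast Int.one_le_abs hr0)) (hfree r hr hr0))
        have : P.ab w (k + 1) = ((P.ab w k).1, (P.ab w k).1 + 2 ^ (P.d - k)) := by
          simp [ab, show k < P.d by omega, show w ⟨k, _⟩ = false from hw]
        rw [gap, T, this, div_le_iff₀ (by positivity)]
        exact le_mul_of_one_le_right (by positivity) (one_le_pow₀ hm)

theorem two_T_add_lo_lt (hR : 0 < P.R) (w : Fin P.d → Bool) {k : ℕ} (hk : k < P.d) :
    (P.T w k + P.lo w k) * P.htRec P.d < P.gap w k := by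
  have := four_lo_lt_T hR w k
  have := T_lt_gap hR w hk
  have : (1 : ℝ) ≤ P.htRec P.d := by exact_mod_cast P.one_le_htRec P.d
  have := T_nonneg w k
  nlinarith

theorem lo_final_lt_gap (hR : 0 < P.R) (w : Fin P.d → Bool) :
    (P.d : ℝ) * P.htRec P.d * P.lo w P.d + P.R < P.gap w P.d := by
  have hm : (1 : ℝ) ≤ P.htRec P.d := by exact_mod_cast P.one_le_htRec P.d
  have hK : (1 : ℝ) ≤ P.K := by exact_mod_cast P.one_le_K
  have hb : (P.ab w P.d).1 + 1 ≤ (P.ab w P.d).2 := by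
    have h := P.ab_width w le_rfl
    simp at h; omega
  have hR' : (0 : ℝ) < P.R := by exact_mod_cast hR
  set A := (P.R : ℝ) * (P.K : ℝ) ^ (P.ab w P.d).1 with hA
  have hA1 : (P.R : ℝ) ≤ A := le_mul_of_one_le_right hR'.le (one_le_pow₀ hK)
  have h2 : A * P.K ≤ (P.R : ℝ) * (P.K : ℝ) ^ (P.ab w P.d).2 := by
    rw [hA, mul_assoc, ← pow_succ]
    exact mul_le_mul_of_nonneg_left (pow_K_mono hb) hR'.le
  have h3 := P.K_big (show P.d + 1 ≤ P.d + 2 by omega)
  have hp : (1 : ℝ) ≤ (P.htRec P.d : ℝ) ^ P.d := one_le_pow₀ hm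
  rw [gap, lt_div_iff₀ (by positivity), show P.lo w P.d = 4 * A by rw [lo, hA]; ring]
  have hx : (1 : ℝ) ≤ (P.htRec P.d : ℝ) ^ (P.d + 1) := one_le_pow₀ hm
  calc ((P.d : ℝ) * P.htRec P.d * (4 * A) + P.R) * (P.htRec P.d : ℝ) ^ P.d
      ≤ (4 * P.d * P.htRec P.d + P.htRec P.d) * A * (P.htRec P.d : ℝ) ^ P.d := by
        refine mul_le_mul_of_nonneg_right ?_ (by positivity); nlinarith
    _ = (4 * (P.d : ℝ) + 1) * (P.htRec P.d : ℝ) ^ (P.d + 1) * A := by ring
    _ < A * P.K := by nlinarith [show (0 : ℝ) ≤ P.d from Nat.cast_nonneg _]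
    _ ≤ _ := h2

end Par

end Vale.Agent.P072
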